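import Mathlib

/-!
Cubic forms through symmetric trilinear forms; residual conics of a line on a
smooth cubic surface; a line disjoint from a given line.
-/

namespace Vale.Agent.R2.H389.Cf

open Polynomial

/-- A symmetric trilinear form. -/
structure Tri (E : Type) [AddCommGroup E] [Module ℂ E] where
  t : E → E → E → ℂ
  add1 : ∀ x x' y z, t (x + x') y z = t x y z + t x' y z
  smul1 : ∀ (c : ℂ) x y z, t (c • x) y z = c * t x y z
  swap12 : ∀ x y z, t x y z = t y x z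
  swap23 : ∀ x y z, t x y z = t x z y

variable {E : Type} [AddCommGroup E] [Module ℂ E]

namespace Tri

variable (T : Tri E)

theorem sw (y z x : E) : T.t x y z = T.t x z y := T.swap23 x y z

theorem add2 (x y y' z : E) : T.t x (y + y') z = T.t x y z + T.t x y' z := by
  rw [T.swap12, T.add1, T.swap12 y, T.swap12 y']

theorem add3 (x y z z' : E) : T.t x y (z + z') = T.t x y z + T.t x y z' := by
  rw [T.swap23, T.add2, T.swap23 x z, T.swap23 x z']

theorem smul2 (c : ℂ) (x y z : E) : T.t x (c • y) z = c * T.t x y z := by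
  rw [T.swap12, T.smul1, T.swap12 y]

theorem smul3 (c : ℂ) (x y z : E) : T.t x y (c • z) = c * T.t x y z := by
  rw [T.swap23, T.smul2, T.swap23 x z]

theorem zero1 (y z : E) : T.t 0 y z = 0 := by
  have := T.smul1 0 0 y z
  simpa using this

theorem zero3 (x y : E) : T.t x y 0 = 0 := by
  have := T.smul3 0 x y 0
  simpa using this

theorem neg3 (x y z : E) : T.t x y (-z) = - T.t x y z := by
  have := T.smul3 (-1) x y z
  simpa using this

end Tri

/-- Four independent vectors, elementary form. -/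
def Ind4 (a b c d : E) : Prop :=
  ∀ x y z w : ℂ, x • a + y • b + z • c + w • d = 0 → x = 0 ∧ y = 0 ∧ z = 0 ∧ w = 0

def Ind2 (a b : E) : Prop := ∀ x y : ℂ, x • a + y • b = 0 → x = 0 ∧ y = 0

theorem Ind4.li {a b c d : E} (h : Ind4 a b c d) : LinearIndependent ℂ ![a, b, c, d] := by
  rw [Fintype.linearIndependent_iff]
  intro g hg i
  have := h (g 0) (g 1) (g 2) (g 3) (by simpa [Fin.sum_univ_four] using hg)
  obtain ⟨h0, h1, h2, h3⟩ := this
  fin_cases i
  · exact h0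
  · exact h1
  · exact h2
  · exact h3

theorem Ind4.span (hE : Module.finrank ℂ E = 4) {a b c d : E} (h : Ind4 a b c d) (v : E) :
    ∃ x y z w : ℂ, v = x • a + y • b + z • c + w • d := by
  have hl := h.li
  have : FiniteDimensional ℂ E := Module.finite_of_finrank_pos (by omega)
  have hs : ⊤ ≤ Submodule.span ℂ (Set.range ![a, b, c, d]) := by
    rw [hl.span_eq_top_of_card_eq_finrank' (by simp [hE])]
  have hv : v ∈ Submodule.span ℂ (Set.range ![a, b, c, d]) := hs trivial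
  rw [Submodule.mem_span_range_iff_exists_fun] at hv
  obtain ⟨g, hg⟩ := hv
  exact ⟨g 0, g 1, g 2, g 3, by simpa [Fin.sum_univ_four] using hg.symm⟩

theorem Ind2.extend (hE : Module.finrank ℂ E = 4) {a b : E} (h : Ind2 a b) :
    ∃ c d : E, Ind4 a b c d := by
  have hl : LinearIndependent ℂ ![a, b] := by
    rw [LinearIndependent.pair_iff]
    exact h
  have : FiniteDimensional ℂ E := Module.finite_of_finrank_pos (by omega)
  obtain ⟨c, hc⟩ := exists_linearIndependent_snoc_of_lt_finrank hl (by omega)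
  obtain ⟨d, hd⟩ := exists_linearIndependent_snoc_of_lt_finrank hc (by omega)
  refine ⟨c, d, ?_⟩
  intro x y z w hxy
  rw [Fintype.linearIndependent_iff] at hd
  have := hd ![x, y, z, w] (by
    simp [Fin.sum_univ_four]
    simpa [Fin.snoc] using hxy)
  exact ⟨this 0, this 1, this 2, this 3⟩

/-- vanishing of `T(x,x,.)` can be tested on four independent vectors -/
theorem Tri.basis4 (hE : Module.finrank ℂ E = 4) (T : Tri E) {a b c d : E} (h : Ind4 a b c d)
    (x : E) (ha : T.t x x a = 0) (hb : T.t x x b = 0) (hc : T.t x x c = 0)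
    (hd : T.t x x d = 0) (v : E) : T.t x x v = 0 := by
  obtain ⟨p, q, r, s, rfl⟩ := h.span hE v
  simp only [T.add3, T.smul3, ha, hb, hc, hd]
  ring

theorem root_of_coeff (p : ℂ[X]) (k : ℕ) (hk : k ≠ 0) (h : p.coeff k ≠ 0) :
    ∃ a, p.eval a = 0 := by
  have hd : p.degree ≠ 0 := by
    intro hd
    rw [eq_C_of_degree_eq_zero hd, coeff_C] at h
    simp [hk] at h
  obtain ⟨a, ha⟩ := IsAlgClosed.exists_root p hd
  exact ⟨a, ha⟩

theorem root5 (c5 c4 c3 c2 c1 c0 : ℂ) (h : c5 ≠ 0 ∨ c4 ≠ 0) :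
    ∃ a : ℂ, c5 * a ^ 5 + c4 * a ^ 4 + c3 * a ^ 3 + c2 * a ^ 2 + c1 * a + c0 = 0 := by
  set p : ℂ[X] := C c5 * X ^ 5 + C c4 * X ^ 4 + C c3 * X ^ 3 + C c2 * X ^ 2 + C c1 * X + C c0
    with hp
  have h5 : p.coeff 5 = c5 := by
    simp [hp, coeff_X_pow, coeff_C_mul]
  have h4 : p.coeff 4 = c4 := by
    simp [hp, coeff_X_pow, coeff_C_mul]
  have : ∃ a, p.eval a = 0 := by
    rcases h with h | h
    · exact root_of_coeff p 5 (by norm_num) (by rwa [h5])
    · exact root_of_coeff p 4 (by norm_num) (by rwa [h4])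
  obtain ⟨a, ha⟩ := this
  exact ⟨a, by simpa [hp] using ha⟩

theorem root2 (A B C : ℂ) (hA : A ≠ 0) : ∃ x : ℂ, A * x ^ 2 + 2 * B * x + C = 0 := by
  obtain ⟨r, hr⟩ := IsAlgClosed.exists_pow_nat_eq (B ^ 2 - A * C) (n := 2) (by norm_num)
  refine ⟨(-B + r) / A, ?_⟩
  field_simp
  linear_combination hr

theorem root2h (A B C : ℂ) :
    ∃ x y : ℂ, (x ≠ 0 ∨ y ≠ 0) ∧ A * x ^ 2 + 2 * B * x * y + C * y ^ 2 = 0 := by
  by_cases hA : A = 0
  · exact ⟨1, 0, Or.inl one_ne_zero, by simp [hA]⟩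
  · obtain ⟨x, hx⟩ := root2 A B C hA
    exact ⟨x, 1, Or.inr one_ne_zero, by linear_combination hx⟩

theorem root3 (c3 c2 c1 c0 : ℂ) (h : c3 ≠ 0) :
    ∃ a : ℂ, c3 * a ^ 3 + c2 * a ^ 2 + c1 * a + c0 = 0 := by
  set p : ℂ[X] := C c3 * X ^ 3 + C c2 * X ^ 2 + C c1 * X + C c0 with hp
  have h3 : p.coeff 3 = c3 := by
    simp [hp, coeff_X_pow, coeff_C_mul]
  obtain ⟨a, ha⟩ := root_of_coeff p 3 (by norm_num) (by rwa [h3])
  exact ⟨a, by simpa [hp] using ha⟩

theorem root3h (A B C D : ℂ) :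
    ∃ x y : ℂ, (x ≠ 0 ∨ y ≠ 0) ∧
      A * x ^ 3 + 3 * B * x ^ 2 * y + 3 * C * x * y ^ 2 + D * y ^ 3 = 0 := by
  by_cases hA : A = 0
  · exact ⟨1, 0, Or.inl one_ne_zero, by simp [hA]⟩
  · obtain ⟨x, hx⟩ := root3 A (3 * B) (3 * C) D hA
    exact ⟨x, 1, Or.inr one_ne_zero, by linear_combination hx⟩

theorem detroot (a1 a0 b1 b0 c1 c0 d2 d1 d0 e2 e1 e0 f3 f2 f1 f0 : ℂ)
    (h : a1 * c1 * f3 - a1 * e2 * e2 - b1 * b1 * f3 + 2 * b1 * d2 * e2 - c1 * d2 * d2 ≠ 0 ∨
      a0 * c1 * f3 - a0 * e2 * e2 + a1 * c0 * f3 + a1 * c1 * f2 - 2 * a1 * e1 * e2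
        - 2 * b0 * b1 * f3 + 2 * b0 * d2 * e2 - b1 * b1 * f2 + 2 * b1 * d1 * e2
        + 2 * b1 * d2 * e1 - c0 * d2 * d2 - 2 * c1 * d1 * d2 ≠ 0) :
    ∃ s : ℂ, (a1 * s + a0) * ((c1 * s + c0) * (f3 * s ^ 3 + f2 * s ^ 2 + f1 * s + f0)
        - (e2 * s ^ 2 + e1 * s + e0) * (e2 * s ^ 2 + e1 * s + e0))
      - (b1 * s + b0) * ((b1 * s + b0) * (f3 * s ^ 3 + f2 * s ^ 2 + f1 * s + f0)
        - (d2 * s ^ 2 + d1 * s + d0) * (e2 * s ^ 2 + e1 * s + e0))
      + (d2 * s ^ 2 + d1 * s + d0) * ((b1 * s + b0) * (e2 * s ^ 2 + e1 * s + e0)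
        - (c1 * s + c0) * (d2 * s ^ 2 + d1 * s + d0)) = 0 := by
  obtain ⟨s, hs⟩ := root5 _ _
    (a0 * c0 * f3 + a0 * c1 * f2 - 2 * a0 * e1 * e2 + a1 * c0 * f2 + a1 * c1 * f1
      - 2 * a1 * e0 * e2 - a1 * e1 * e1 - b0 * b0 * f3 - 2 * b0 * b1 * f2 + 2 * b0 * d1 * e2
      + 2 * b0 * d2 * e1 - b1 * b1 * f1 + 2 * b1 * d0 * e2 + 2 * b1 * d1 * e1
      + 2 * b1 * d2 * e0 - 2 * c0 * d1 * d2 - 2 * c1 * d0 * d2 - c1 * d1 * d1)
    (a0 * c0 * f2 + a0 * c1 * f1 - 2 * a0 * e0 * e2 - a0 * e1 * e1 + a1 * c0 * f1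
      + a1 * c1 * f0 - 2 * a1 * e0 * e1 - b0 * b0 * f2 - 2 * b0 * b1 * f1 + 2 * b0 * d0 * e2
      + 2 * b0 * d1 * e1 + 2 * b0 * d2 * e0 - b1 * b1 * f0 + 2 * b1 * d0 * e1
      + 2 * b1 * d1 * e0 - 2 * c0 * d0 * d2 - c0 * d1 * d1 - 2 * c1 * d0 * d1)
    (a0 * c0 * f1 + a0 * c1 * f0 - 2 * a0 * e0 * e1 + a1 * c0 * f0 - a1 * e0 * e0
      - b0 * b0 * f1 - 2 * b0 * b1 * f0 + 2 * b0 * d0 * e1 + 2 * b0 * d1 * e0
      + 2 * b1 * d0 * e0 - 2 * c0 * d0 * d1 - c1 * d0 * d0)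
    (a0 * c0 * f0 - a0 * e0 * e0 - b0 * b0 * f0 + 2 * b0 * d0 * e0 - c0 * d0 * d0) h
  exact ⟨s, by linear_combination hs⟩

/-- A degenerate conic, with respect to the line at infinity. -/
theorem conic (A B C D E F : ℂ)
    (hdet : A * (C * F - E * E) - B * (B * F - D * E) + D * (B * E - C * D) = 0)
    (hne : A ≠ 0 ∨ B ≠ 0 ∨ C ≠ 0) :
    ∃ x y p q : ℂ, (x ≠ 0 ∨ y ≠ 0) ∧ A * x ^ 2 + 2 * B * x * y + C * y ^ 2 = 0 ∧
      A * p * x + B * (p * y + q * x) + C * q * y + D * x + E * y = 0 ∧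
      A * p ^ 2 + 2 * B * p * q + C * q ^ 2 + 2 * D * p + 2 * E * q + F = 0 := by
  by_cases hΔ : A * C - B ^ 2 = 0
  · by_cases hA : A = 0
    · have hB : B = 0 := by
        have : B ^ 2 = 0 := by rw [hA] at hΔ; linear_combination -hΔ
        exact pow_eq_zero_iff (two_ne_zero) |>.mp this
      have hC : C ≠ 0 := by
        rcases hne with h | h | h
        · exact absurd hA h
        · exact absurd hB h
        · exact h
      have hD : D = 0 := by
        have : C * D ^ 2 = 0 := by rw [hA, hB] at hdet; linear_combination -hdet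
        rcases mul_eq_zero.mp this with h | h
        · exact absurd h hC
        · exact pow_eq_zero_iff (two_ne_zero) |>.mp h
      obtain ⟨q, hq⟩ := root2 C E F hC
      exact ⟨1, 0, 0, q, Or.inl one_ne_zero, by simp [hA], by simp [hA, hB, hD],
        by rw [hA, hB, hD]; linear_combination hq⟩
    · have hE : A * E - B * D = 0 := by
        have : (A * E - B * D) ^ 2 = 0 := by
          linear_combination (-A) * hdet + (A * F - D ^ 2) * hΔ
        exact pow_eq_zero_iff (two_ne_zero) |>.mp this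
      obtain ⟨p, hp⟩ := root2 A D F hA
      refine ⟨B, -A, p, 0, Or.inr (neg_ne_zero.mpr hA), ?_, ?_, ?_⟩
      · linear_combination A * hΔ
      · linear_combination -hE
      · linear_combination hp
  · obtain ⟨x, y, hxy, hq⟩ := root2h A B C
    obtain ⟨u, hu⟩ : ∃ u : ℂ, (A * C - B ^ 2) * u = 1 := ⟨(A * C - B ^ 2)⁻¹, mul_inv_cancel₀ hΔ⟩
    have h1 : A * ((B * E - C * D) * u) + B * ((B * D - A * E) * u) + D = 0 := by
      linear_combination (-D) * hu
    have h2 : B * ((B * E - C * D) * u) + C * ((B * D - A * E) * u) + E = 0 := by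
      linear_combination (-E) * hu
    have h3 : D * ((B * E - C * D) * u) + E * ((B * D - A * E) * u) + F = 0 := by
      linear_combination u * hdet - F * hu
    refine ⟨x, y, (B * E - C * D) * u, (B * D - A * E) * u, hxy, hq, ?_, ?_⟩
    · linear_combination x * h1 + y * h2
    · linear_combination ((B * E - C * D) * u) * h1 + ((B * D - A * E) * u) * h2 + h3

end Vale.Agent.R2.H389.Cf
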