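import Vale.Agent.R2.H389.Cf1

/-!
Lines on a smooth cubic surface: for every line there is a disjoint one.
-/

namespace Vale.Agent.R2.H389.Cf

set_option linter.unusedSimpArgs false

variable {E : Type} [AddCommGroup E] [Module ℂ E]

/-- The cubic form vanishes on the span of `a` and `b`. -/
def Z2 (T : Tri E) (a b : E) : Prop :=
  T.t a a a = 0 ∧ T.t a a b = 0 ∧ T.t a b b = 0 ∧ T.t b b b = 0

theorem resid (T : Tri E) (u v g : E) (h : Z2 T u v)
    (hdet : (3 * T.t u u g) * ((3 * T.t v v g) * T.t g g g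
        - (3 / 2 * T.t v g g) * (3 / 2 * T.t v g g))
      - (3 * T.t u v g) * ((3 * T.t u v g) * T.t g g g
        - (3 / 2 * T.t u g g) * (3 / 2 * T.t v g g))
      + (3 / 2 * T.t u g g) * ((3 * T.t u v g) * (3 / 2 * T.t v g g)
        - (3 * T.t v v g) * (3 / 2 * T.t u g g)) = 0)
    (hne : T.t u u g ≠ 0 ∨ T.t u v g ≠ 0 ∨ T.t v v g ≠ 0) :
    ∃ x y p q : ℂ, (x ≠ 0 ∨ y ≠ 0) ∧ Z2 T (x • u + y • v) (p • u + q • v + g) := by
  obtain ⟨h1, h2, h3, h4⟩ := h
  obtain ⟨x, y, p, q, hxy, e1, e2, e3⟩ := conic (3 * T.t u u g) (3 * T.t u v g) (3 * T.t v v g)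
    (3 / 2 * T.t u g g) (3 / 2 * T.t v g g) (T.t g g g) hdet (by
      rcases hne with h | h | h
      · exact Or.inl (mul_ne_zero (by norm_num) h)
      · exact Or.inr (Or.inl (mul_ne_zero (by norm_num) h))
      · exact Or.inr (Or.inr (mul_ne_zero (by norm_num) h)))
  refine ⟨x, y, p, q, hxy, ?_, ?_, ?_, ?_⟩
  · simp only [T.add1, T.add2, T.add3, T.smul1, T.smul2, T.smul3, T.swap12 v u, T.sw v u,
      h1, h2, h3, h4]
    ring
  · simp only [T.add1, T.add2, T.add3, T.smul1, T.smul2, T.smul3, T.swap12 v u, T.sw v u,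
      T.swap12 g u, T.sw g u, T.swap12 g v, T.sw g v, h1, h2, h3, h4]
    linear_combination (1 / 3) * e1
  · simp only [T.add1, T.add2, T.add3, T.smul1, T.smul2, T.smul3, T.swap12 v u, T.sw v u,
      T.swap12 g u, T.sw g u, T.swap12 g v, T.sw g v, h1, h2, h3, h4]
    linear_combination (2 / 3) * e2
  · simp only [T.add1, T.add2, T.add3, T.smul1, T.smul2, T.smul3, T.swap12 v u, T.sw v u,
      T.swap12 g u, T.sw g u, T.swap12 g v, T.sw g v, h1, h2, h3, h4]
    linear_combination e3

/-- On a smooth cubic surface no plane touches along a line. -/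
theorem ne_of_smooth (hE : Module.finrank ℂ E = 4) (T : Tri E)
    (sm : ∀ x : E, x ≠ 0 → ∃ v, T.t x x v ≠ 0) {u v g e : E} (hi : Ind4 u v g e)
    (h : Z2 T u v) : T.t u u g ≠ 0 ∨ T.t u v g ≠ 0 ∨ T.t v v g ≠ 0 := by
  by_contra hcon
  push Not at hcon
  obtain ⟨g1, g2, g3⟩ := hcon
  obtain ⟨h1, h2, h3, h4⟩ := h
  obtain ⟨x, y, hxy, hr⟩ := root2h (T.t u u e) (T.t u v e) (T.t v v e)
  have hw : x • u + y • v ≠ 0 := by
    intro h0
    have := hi x y 0 0 (by simpa using h0)
    rcases hxy with h | h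
    · exact h this.1
    · exact h this.2.1
  obtain ⟨z, hz⟩ := sm _ hw
  apply hz
  apply T.basis4 hE hi
  · simp only [T.add1, T.add2, T.add3, T.smul1, T.smul2, T.smul3, T.swap12 v u, T.sw v u,
      h1, h2, h3, h4]
    ring
  · simp only [T.add1, T.add2, T.add3, T.smul1, T.smul2, T.smul3, T.swap12 v u, T.sw v u,
      h1, h2, h3, h4]
    ring
  · simp only [T.add1, T.add2, T.add3, T.smul1, T.smul2, T.smul3, T.swap12 v u, T.sw v u,
      g1, g2, g3]
    ring
  · simp only [T.add1, T.add2, T.add3, T.smul1, T.smul2, T.smul3, T.swap12 v u, T.sw v u]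
    linear_combination hr

/-- Second step: from two lines meeting in a point to a line disjoint from the second. -/
theorem surf2 (hE : Module.finrank ℂ E = 4) (T : Tri E)
    (sm : ∀ x : E, x ≠ 0 → ∃ v, T.t x x v ≠ 0) {a b c d : E} (hi : Ind4 a b c d)
    (hab : Z2 T a b) (hac : Z2 T a c) : ∃ e f : E, Z2 T e f ∧ Ind4 a c e f := by
  have hab' := hab
  obtain ⟨h1, h2, h3, h4⟩ := hab
  obtain ⟨_, k2, k3, k4⟩ := hac
  have hκ : T.t a a d * T.t b c c ^ 2 + 4 * T.t a b c ^ 2 * T.t c c d
      - 4 * T.t a b c * T.t a c d * T.t b c c ≠ 0 := by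
    intro hκ
    by_cases h0 : T.t b c c = 0 ∧ T.t a b c = 0
    · obtain ⟨p1, p2⟩ := h0
      obtain ⟨x, y, hxy, hr⟩ := root2h (T.t a a d) (T.t a c d) (T.t c c d)
      have hw : x • a + y • c ≠ 0 := by
        intro h0
        have := hi x 0 y 0 (by simpa using h0)
        rcases hxy with h | h
        · exact h this.1
        · exact h this.2.2.1
      obtain ⟨z, hz⟩ := sm _ hw
      apply hz
      apply T.basis4 hE hi
      · simp only [T.add1, T.add2, T.add3, T.smul1, T.smul2, T.smul3, T.swap12 c a, T.sw c a,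
          h1, k2, k3, k4]
        ring
      · simp only [T.add1, T.add2, T.add3, T.smul1, T.smul2, T.smul3, T.swap12 c a, T.sw c a,
          T.swap12 c b, T.sw c b, h2, p1, p2]
        ring
      · simp only [T.add1, T.add2, T.add3, T.smul1, T.smul2, T.smul3, T.swap12 c a, T.sw c a,
          h1, k2, k3, k4]
        ring
      · simp only [T.add1, T.add2, T.add3, T.smul1, T.smul2, T.smul3, T.swap12 c a, T.sw c a]
        linear_combination hr
    · have hw : T.t b c c • a + (-2 * T.t a b c) • c ≠ 0 := by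
        intro h0'
        have := hi (T.t b c c) 0 (-2 * T.t a b c) 0 (by
          rw [← h0']
          module)
        apply h0
        refine ⟨this.1, ?_⟩
        have h5 := this.2.2.1
        linear_combination (-1 / 2) * h5
      obtain ⟨z, hz⟩ := sm _ hw
      apply hz
      apply T.basis4 hE hi
      · simp only [T.add1, T.add2, T.add3, T.smul1, T.smul2, T.smul3, T.swap12 c a, T.sw c a,
          h1, k2, k3, k4]
        ring
      · simp only [T.add1, T.add2, T.add3, T.smul1, T.smul2, T.smul3, T.swap12 c a, T.sw c a,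
          T.swap12 c b, T.sw c b, h2]
        ring
      · simp only [T.add1, T.add2, T.add3, T.smul1, T.smul2, T.smul3, T.swap12 c a, T.sw c a,
          h1, k2, k3, k4]
        ring
      · simp only [T.add1, T.add2, T.add3, T.smul1, T.smul2, T.smul3, T.swap12 c a, T.sw c a]
        linear_combination hκ
  obtain ⟨s, hs⟩ := detroot 0 (3 * T.t a a d) (3 * T.t a b c) (3 * T.t a b d)
    (3 * T.t b b c) (3 * T.t b b d) 0 (3 * T.t a c d) (3 / 2 * T.t a d d)
    (3 / 2 * T.t b c c) (3 * T.t b c d) (3 / 2 * T.t b d d)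
    0 (3 * T.t c c d) (3 * T.t c d d) (T.t d d d) (by
      right
      intro h
      apply hκ
      linear_combination (-4 / 27) * h)
  have hi' : Ind4 a b (s • c + d) c := by
    intro x y z w h
    have := hi x y (z * s + w) z (by
      rw [← h]
      module)
    obtain ⟨q1, q2, q3, q4⟩ := this
    refine ⟨q1, q2, q4, ?_⟩
    rw [q4] at q3
    simpa using q3
  obtain ⟨x, y, p, q, hxy, hZ⟩ := resid T a b (s • c + d) hab' (by
    simp only [T.add1, T.add2, T.add3, T.smul1, T.smul2, T.smul3, T.swap12 d c, T.sw d c,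
      k2, k3, k4]
    linear_combination hs) (ne_of_smooth hE T sm hi' hab')
  have hy : y ≠ 0 := by
    intro hy
    rw [hy] at hxy hZ
    have hx : x ≠ 0 := by
      rcases hxy with h | h
      · exact h
      · exact absurd rfl h
    have e2 := hZ.2.1
    simp only [T.add1, T.add2, T.add3, T.smul1, T.smul2, T.smul3, h1, h2, k2] at e2
    have ha : a ≠ 0 := by
      intro h0
      have := hi 1 0 0 0 (by simp [h0])
      exact one_ne_zero this.1
    obtain ⟨z, hz⟩ := sm a ha
    apply hz
    apply T.basis4 hE hi a h1 h2 k2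
    have e3 : x * (x * T.t a a d) = 0 := by
      simpa using e2
    rcases mul_eq_zero.mp e3 with h | h
    · exact absurd h hx
    · rcases mul_eq_zero.mp h with h | h
      · exact absurd h hx
      · exact h
  refine ⟨_, _, hZ, ?_⟩
  intro x1 x2 x3 x4 h
  have := hi (x1 + x3 * x + x4 * p) (x3 * y + x4 * q) (x2 + x4 * s) x4 (by
    rw [← h]
    module)
  obtain ⟨q1, q2, q3, q4⟩ := this
  rw [q4] at q1 q2 q3
  have h3 : x3 = 0 := by
    have : x3 * y = 0 := by simpa using q2
    rcases mul_eq_zero.mp this with h | h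
    · exact h
    · exact absurd h hy
  rw [h3] at q1
  exact ⟨by simpa using q1, by simpa using q3, h3, q4⟩

/-- For every line on a smooth cubic surface there is a disjoint line on it. -/
theorem surf (hE : Module.finrank ℂ E = 4) (T : Tri E)
    (sm : ∀ x : E, x ≠ 0 → ∃ v, T.t x x v ≠ 0) {a b : E} (hi : Ind2 a b)
    (hab : Z2 T a b) : ∃ e f : E, Z2 T e f ∧ Ind4 a b e f := by
  obtain ⟨g1, g2, hi4⟩ := hi.extend hE
  -- a degenerate residual conic
  obtain ⟨g, g', hg, hdet⟩ : ∃ g g' : E, Ind4 a b g g' ∧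
      (3 * T.t a a g) * ((3 * T.t b b g) * T.t g g g
        - (3 / 2 * T.t b g g) * (3 / 2 * T.t b g g))
      - (3 * T.t a b g) * ((3 * T.t a b g) * T.t g g g
        - (3 / 2 * T.t a g g) * (3 / 2 * T.t b g g))
      + (3 / 2 * T.t a g g) * ((3 * T.t a b g) * (3 / 2 * T.t b g g)
        - (3 * T.t b b g) * (3 / 2 * T.t a g g)) = 0 := by
    by_cases h5 : (3 * T.t a a g1) * ((3 * T.t b b g1) * T.t g1 g1 g1
        - (3 / 2 * T.t b g1 g1) * (3 / 2 * T.t b g1 g1))
      - (3 * T.t a b g1) * ((3 * T.t a b g1) * T.t g1 g1 g1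
        - (3 / 2 * T.t a g1 g1) * (3 / 2 * T.t b g1 g1))
      + (3 / 2 * T.t a g1 g1) * ((3 * T.t a b g1) * (3 / 2 * T.t b g1 g1)
        - (3 * T.t b b g1) * (3 / 2 * T.t a g1 g1)) = 0
    · exact ⟨g1, g2, hi4, h5⟩
    · obtain ⟨s, hs⟩ := detroot (3 * T.t a a g1) (3 * T.t a a g2) (3 * T.t a b g1)
        (3 * T.t a b g2) (3 * T.t b b g1) (3 * T.t b b g2)
        (3 / 2 * T.t a g1 g1) (3 * T.t a g1 g2) (3 / 2 * T.t a g2 g2)
        (3 / 2 * T.t b g1 g1) (3 * T.t b g1 g2) (3 / 2 * T.t b g2 g2)
        (T.t g1 g1 g1) (3 * T.t g1 g1 g2) (3 * T.t g1 g2 g2) (T.t g2 g2 g2) (by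
          left
          intro h
          apply h5
          linear_combination h)
      refine ⟨s • g1 + g2, g1, ?_, ?_⟩
      · intro x y z w h
        have := hi4 x y (z * s + w) z (by
          rw [← h]
          module)
        obtain ⟨q1, q2, q3, q4⟩ := this
        refine ⟨q1, q2, q4, ?_⟩
        rw [q4] at q3
        simpa using q3
      · simp only [T.add1, T.add2, T.add3, T.smul1, T.smul2, T.smul3, T.swap12 g2 g1, T.sw g2 g1]
        linear_combination hs
  obtain ⟨x, y, p, q, hxy, hZ⟩ := resid T a b g hab hdet (ne_of_smooth hE T sm hg hab)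
  obtain ⟨h1, h2, h3, h4⟩ := hab
  by_cases hy : y = 0
  · have hx : x ≠ 0 := by
      rcases hxy with h | h
      · exact h
      · exact absurd hy h
    obtain ⟨e, f, hef, hI⟩ := surf2 hE T sm (a := x • a + y • b) (b := p • a + q • b + g)
      (c := b) (d := g') (by
        intro x1 x2 x3 x4 h
        have := hg (x1 * x + x2 * p) (x1 * y + x2 * q + x3) x2 x4 (by
          rw [← h]
          module)
        obtain ⟨q1, q2, q3, q4⟩ := this
        rw [q3, zero_mul, add_zero] at q1
        rcases mul_eq_zero.mp q1 with h' | h'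
        · rw [q3, h'] at q2
          exact ⟨h', q3, by simpa using q2, q4⟩
        · exact absurd h' hx) hZ
      ⟨hZ.1, by
          simp only [T.add1, T.add2, T.smul1, T.smul2, T.swap12 b a, h2, h3, h4]
          ring, by
          simp only [T.add1, T.smul1, h3, h4]
          ring, h4⟩
    refine ⟨e, f, hef, ?_⟩
    intro x1 x2 x3 x4 h
    have := hI (x1 / x) (x2 - x1 / x * y) x3 x4 (by
      rw [← h]
      have : x1 = x1 / x * x := by field_simp
      conv_rhs => rw [this]
      module)
    obtain ⟨q1, q2, q3, q4⟩ := this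
    have h5 : x1 = 0 := by
      rcases div_eq_zero_iff.mp q1 with h' | h'
      · exact h'
      · exact absurd h' hx
    rw [h5] at q2
    exact ⟨h5, by simpa using q2, q3, q4⟩
  · obtain ⟨e, f, hef, hI⟩ := surf2 hE T sm (a := x • a + y • b) (b := p • a + q • b + g)
      (c := a) (d := g') (by
        intro x1 x2 x3 x4 h
        have := hg (x1 * x + x2 * p + x3) (x1 * y + x2 * q) x2 x4 (by
          rw [← h]
          module)
        obtain ⟨q1, q2, q3, q4⟩ := this
        rw [q3, zero_mul, add_zero] at q2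
        rcases mul_eq_zero.mp q2 with h' | h'
        · rw [q3, h'] at q1
          exact ⟨h', q3, by simpa using q1, q4⟩
        · exact absurd h' hy) hZ
      ⟨hZ.1, by
          simp only [T.add1, T.add2, T.smul1, T.smul2, T.swap12 b a, T.sw b a, h1, h2, h3]
          ring, by
          simp only [T.add1, T.smul1, T.swap12 b a, T.sw b a, h1, h2]
          ring, h1⟩
    refine ⟨e, f, hef, ?_⟩
    intro x1 x2 x3 x4 h
    have := hI (x2 / y) (x1 - x2 / y * x) x3 x4 (by
      rw [← h]
      have : x2 = x2 / y * y := by field_simp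
      conv_rhs => rw [this]
      module)
    obtain ⟨q1, q2, q3, q4⟩ := this
    have h5 : x2 = 0 := by
      rcases div_eq_zero_iff.mp q1 with h' | h'
      · exact h'
      · exact absurd h' hy
    rw [h5] at q2
    exact ⟨by simpa using q2, h5, q3, q4⟩

end Vale.Agent.R2.H389.Cf
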