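import Vale.Agent.R2.H389.Cf2

/-!
Eckardt points of cubic fourfolds and disjoint planes.
-/

namespace Vale.Agent.R2.H389.Cf

set_option linter.unusedSimpArgs false

open Module

variable {V : Type} [AddCommGroup V] [Module ℂ V]

/-- restriction to a subspace -/
def Tri.sub (T : Tri V) (W : Submodule ℂ V) : Tri W where
  t x y z := T.t x y z
  add1 x x' y z := T.add1 x x' y z
  smul1 c x y z := T.smul1 c x y z
  swap12 x y z := T.swap12 x y z
  swap23 x y z := T.swap23 x y z

/-- the functional `v ↦ T(x,y,v)` -/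
def Tri.fn (T : Tri V) (x y : V) : V →ₗ[ℂ] ℂ where
  toFun v := T.t x y v
  map_add' v w := T.add3 x y v w
  map_smul' c v := by simp [T.smul3]

structure Eck (T : Tri V) (p : V) : Prop where
  ne : p ≠ 0
  z : T.t p p p = 0
  c : ∀ v, T.t p p v = 0 → T.t p v v = 0

/-- a three dimensional subspace on which the cubic form vanishes -/
def IsPl (T : Tri V) (W : Submodule ℂ V) : Prop :=
  finrank ℂ W = 3 ∧ ∀ x ∈ W, T.t x x x = 0

theorem Eck.pol {T : Tri V} {p : V} (h : Eck T p) {v w : V} (hv : T.t p p v = 0)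
    (hw : T.t p p w = 0) : T.t p v w = 0 := by
  have h1 := h.c v hv
  have h2 := h.c w hw
  have h3 := h.c (v + w) (by rw [T.add3, hv, hw, add_zero])
  simp only [T.add2, T.add3, T.sw w v, h1, h2] at h3
  linear_combination (1 / 2) * h3

theorem Tri.prop (T : Tri V) {p w0 : V} (h0 : T.t p p w0 ≠ 0) {x y : V}
    (h : ∀ v, T.t p p v = 0 → T.t x y v = 0) : ∃ c : ℂ, ∀ v, T.t x y v = c * T.t p p v := by
  refine ⟨T.t x y w0 / T.t p p w0, fun v => ?_⟩
  have h1 := h (v + (-(T.t p p v / T.t p p w0)) • w0) (by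
    rw [T.add3, T.smul3]
    field_simp
    ring)
  rw [T.add3, T.smul3] at h1
  field_simp
  field_simp at h1
  linear_combination h1

theorem Eck.smooth {T : Tri V} {p : V} (h : Eck T p)
    (sm : ∀ x : V, x ≠ 0 → ∃ v, T.t x x v ≠ 0) {x : V} (hx : T.t p p x = 0)
    (hxp : ∀ s : ℂ, x + s • p ≠ 0) : ∃ v, T.t p p v = 0 ∧ T.t x x v ≠ 0 := by
  by_contra hcon
  push Not at hcon
  obtain ⟨w0, hw0⟩ := sm p h.ne
  obtain ⟨c, hc⟩ := T.prop hw0 hcon
  obtain ⟨c', hc'⟩ := T.prop hw0 (x := p) (y := x) (fun v hv => h.pol hx hv)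
  obtain ⟨s, hs⟩ := root2 1 c' c one_ne_zero
  obtain ⟨v, hv⟩ := sm _ (hxp s)
  apply hv
  simp only [T.add1, T.add2, T.smul1, T.smul2, T.swap12 x p, hc, hc']
  linear_combination (T.t p p v) * hs

/-- The base of the cone at an Eckardt point. -/
theorem Eck.base {T : Tri V} {p : V} (h : Eck T p) (hV : finrank ℂ V = 6)
    (sm : ∀ x : V, x ≠ 0 → ∃ v, T.t x x v ≠ 0) (W : Submodule ℂ V) (hp : p ∉ W) :
    ∃ E : Submodule ℂ V, finrank ℂ E = 4 ∧ (∀ x ∈ E, T.t p p x = 0) ∧ p ∉ E ∧
      (∀ x ∈ W, T.t p p x = 0 → x ∈ E) ∧ (∀ x : E, x ≠ 0 → ∃ v, (T.sub E).t x x v ≠ 0) ∧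
      (∀ x, T.t p p x = 0 → ∃ (e : E) (s : ℂ), x = (e : V) + s • p) := by
  have : FiniteDimensional ℂ V := Module.finite_of_finrank_pos (by omega)
  obtain ⟨f, hf, hfW⟩ := Submodule.exists_dual_map_eq_bot_of_notMem hp inferInstance
  obtain ⟨w0, hw0⟩ := sm p h.ne
  have hfW' : ∀ x ∈ W, f x = 0 := by
    intro x hx
    have : f x ∈ W.map f := Submodule.mem_map_of_mem hx
    rw [hfW] at this
    simpa using this
  set M := (T.fn p p).prod f with hM
  have hMx : ∀ x, M x = (T.t p p x, f x) := fun x => rfl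
  have hsurj : Function.Surjective M := by
    rintro ⟨a, b⟩
    refine ⟨(a / T.t p p w0) • w0 + ((b - (a / T.t p p w0) * f w0) / f p) • p, ?_⟩
    rw [hMx]
    ext
    · simp only [T.add3, T.smul3, h.z]
      field_simp
      ring
    · simp only [map_add, map_smul, smul_eq_mul]
      field_simp
      ring
  have hfin : finrank ℂ (LinearMap.ker M) = 4 := by
    have h1 := LinearMap.finrank_range_add_finrank_ker M
    rw [LinearMap.range_eq_top.mpr hsurj, finrank_top, hV] at h1
    have h2 : finrank ℂ (ℂ × ℂ) = 2 := by simp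
    omega
  have hmem : ∀ x, x ∈ LinearMap.ker M ↔ T.t p p x = 0 ∧ f x = 0 := by
    intro x
    rw [LinearMap.mem_ker, hMx, Prod.mk_eq_zero]
  have hdec : ∀ x, T.t p p x = 0 → ∃ (e : LinearMap.ker M) (s : ℂ), x = (e : V) + s • p := by
    intro x hx
    refine ⟨⟨x + (-(f x / f p)) • p, ?_⟩, f x / f p, by module⟩
    rw [hmem]
    constructor
    · rw [T.add3, T.smul3, hx, h.z]
      ring
    · rw [map_add, map_smul, smul_eq_mul]
      field_simp
      ring
  refine ⟨LinearMap.ker M, hfin, fun x hx => ((hmem x).mp hx).1,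
    fun hpp => hf ((hmem p).mp hpp).2, fun x hx hx' => (hmem x).mpr ⟨hx', hfW' x hx⟩, ?_, hdec⟩
  intro x hx
  have hxE := (hmem x).mp x.2
  obtain ⟨v, hv, hv'⟩ := h.smooth sm hxE.1 (by
    intro s hs
    have h1 : f ((x : V) + s • p) = 0 := by rw [hs, map_zero]
    rw [map_add, map_smul, hxE.2, zero_add, smul_eq_mul] at h1
    rcases mul_eq_zero.mp h1 with h1 | h1
    · rw [h1, zero_smul, add_zero] at hs
      exact hx (by ext; exact hs)
    · exact hf h1)
  obtain ⟨e, s, rfl⟩ := hdec v hv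
  refine ⟨e, ?_⟩
  intro h0
  apply hv'
  have h0' : T.t (x : V) x e = 0 := h0
  rw [T.add3, T.smul3, h0', T.swap23 (x : V) x p, T.swap12 (x : V) p x, h.c x hxE.1]
  ring

/-- A line on the base gives a plane through the Eckardt point. -/
theorem Eck.cone {T : Tri V} {p : V} (h : Eck T p) {E : Submodule ℂ V} (hpE : p ∉ E)
    (hE : ∀ x ∈ E, T.t p p x = 0) {c d : E} (hi : Ind2 c d) (hZ : Z2 (T.sub E) c d) :
    IsPl T (Submodule.span ℂ {p, (c : V), (d : V)}) ∧
      ∀ y ∈ Submodule.span ℂ {p, (c : V), (d : V)},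
        ∃ r s t : ℂ, y = r • p + ((s • c + t • d : E) : V) := by
  obtain ⟨z1, z2, z3, z4⟩ := hZ
  have z1' : T.t (c : V) c c = 0 := z1
  have z2' : T.t (c : V) c d = 0 := z2
  have z3' : T.t (c : V) d d = 0 := z3
  have z4' : T.t (d : V) d d = 0 := z4
  have hc := hE c c.2
  have hd := hE d d.2
  have hcc := h.c _ hc
  have hdd := h.c _ hd
  have hcd := h.pol hc hd
  have hmem : ∀ y ∈ Submodule.span ℂ {p, (c : V), (d : V)},
        ∃ r s t : ℂ, y = r • p + ((s • c + t • d : E) : V) := by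
    intro y hy
    rw [Submodule.mem_span_triple] at hy
    obtain ⟨r, s, t, rfl⟩ := hy
    refine ⟨r, s, t, ?_⟩
    simp only [Submodule.coe_add, Submodule.coe_smul]
    module
  refine ⟨⟨?_, ?_⟩, hmem⟩
  · have hl : LinearIndependent ℂ ![p, (c : V), (d : V)] := by
      rw [Fintype.linearIndependent_iff]
      intro g hg
      rw [Fin.sum_univ_three] at hg
      simp only [Matrix.cons_val_zero, Matrix.cons_val_one, Matrix.cons_val_two,
        Matrix.head_cons, Matrix.tail_cons] at hg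
      have h0 : g 0 = 0 := by
        by_contra h0
        apply hpE
        have : p = (((-(g 0)⁻¹ * g 1) • c + (-(g 0)⁻¹ * g 2) • d : E) : V) := by
          simp only [Submodule.coe_add, Submodule.coe_smul]
          have h1 : g 0 • p = -(g 1 • (c : V) + g 2 • (d : V)) := by
            rw [eq_neg_iff_add_eq_zero, ← hg]
            simp [add_assoc]
          calc p = (g 0)⁻¹ • (g 0 • p) := by rw [smul_smul, inv_mul_cancel₀ h0, one_smul]
            _ = _ := by rw [h1]; module
        rw [this]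
        exact Subtype.coe_prop _
      rw [h0] at hg
      have h12 := hi (g 1) (g 2) (by
        ext
        simpa using hg)
      intro i
      fin_cases i
      · exact h0
      · exact h12.1
      · exact h12.2
    have h3 := finrank_span_eq_card hl
    have hr : Set.range ![p, (c : V), (d : V)] = {p, (c : V), (d : V)} := by
      ext y
      simp [Set.mem_range, Fin.exists_fin_succ, eq_comm]
      tauto
    rw [hr, Fintype.card_fin] at h3
    exact h3
  · intro y hy
    obtain ⟨r, s, t, rfl⟩ := hmem y hy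
    simp only [Submodule.coe_add, Submodule.coe_smul, T.add1, T.add2, T.add3, T.smul1, T.smul2,
      T.smul3, T.swap12 (c : V) p, T.sw (c : V) p, T.swap12 (d : V) p, T.sw (d : V) p,
      T.swap12 (d : V) (c : V), T.sw (d : V) (c : V), h.z, hc, hd, hcc, hdd, hcd, z1', z2', z3',
      z4']
    ring

end Vale.Agent.R2.H389.Cf
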