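import Vale.Agent.R2.H389.Cf3

/-!
Eckardt point and a plane off it: two disjoint planes.  Two Eckardt points.
-/

namespace Vale.Agent.R2.H389.Cf

set_option linter.unusedSimpArgs false

open Module

variable {V : Type} [AddCommGroup V] [Module ℂ V]

theorem pol3 (T : Tri V) {W : Submodule ℂ V} (h : ∀ x ∈ W, T.t x x x = 0) {x y z : V}
    (hx : x ∈ W) (hy : y ∈ W) (hz : z ∈ W) : T.t x y z = 0 := by
  have h1 := h _ (W.add_mem (W.add_mem hx hy) hz)
  have h2 := h _ (W.add_mem hx hy)
  have h3 := h _ (W.add_mem hx hz)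
  have h4 := h _ (W.add_mem hy hz)
  have h5 := h _ hx
  have h6 := h _ hy
  have h7 := h _ hz
  simp only [T.add1, T.add2, T.add3, T.swap12 y x, T.sw y x, T.swap12 z x, T.sw z x,
    T.swap12 z y, T.sw z y] at h1 h2 h3 h4
  linear_combination (1 / 6) * (h1 - h2 - h3 - h4 + h5 + h6 + h7)

theorem ext3 {E : Type} [AddCommGroup E] [Module ℂ E] (hE : finrank ℂ E = 4) {a b c : E}
    (h : ∀ x y z : ℂ, x • a + y • b + z • c = 0 → x = 0 ∧ y = 0 ∧ z = 0) :
    ∃ d : E, Ind4 a b c d := by
  have hl : LinearIndependent ℂ ![a, b, c] := by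
    rw [Fintype.linearIndependent_iff]
    intro g hg i
    rw [Fin.sum_univ_three] at hg
    have := h (g 0) (g 1) (g 2) (by simpa using hg)
    fin_cases i
    · exact this.1
    · exact this.2.1
    · exact this.2.2
  have : FiniteDimensional ℂ E := Module.finite_of_finrank_pos (by omega)
  obtain ⟨d, hd⟩ := exists_linearIndependent_snoc_of_lt_finrank hl (by omega)
  refine ⟨d, ?_⟩
  intro x y z w hxy
  rw [Fintype.linearIndependent_iff] at hd
  have := hd ![x, y, z, w] (by
    simp [Fin.sum_univ_four]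
    simpa [Fin.snoc] using hxy)
  exact ⟨this 0, this 1, this 2, this 3⟩

theorem Ind4.ind2 {E : Type} [AddCommGroup E] [Module ℂ E] {a b c d : E} (h : Ind4 a b c d) :
    Ind2 c d := by
  intro x y hxy
  have := h 0 0 x y (by
    rw [← hxy]
    module)
  exact ⟨this.2.2.1, this.2.2.2⟩

/-- A smooth cubic fourfold with an Eckardt point and a plane off it has two disjoint planes. -/
theorem Eck.disjoint {T : Tri V} {p : V} (h : Eck T p) (hV : finrank ℂ V = 6)
    (sm : ∀ x : V, x ≠ 0 → ∃ v, T.t x x v ≠ 0) {P : Submodule ℂ V} (hP : IsPl T P)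
    (hp : p ∉ P) : ∃ P' : Submodule ℂ V, IsPl T P' ∧ p ∈ P' ∧ P ⊓ P' = ⊥ := by
  have : FiniteDimensional ℂ V := Module.finite_of_finrank_pos (by omega)
  obtain ⟨E, hE4, hE, hpE, hPE, hsm, hdec⟩ := h.base hV sm P hp
  by_cases hall : ∀ x ∈ P, T.t p p x = 0
  · exfalso
    set b := Module.finBasisOfFinrankEq ℂ P hP.1 with hb
    set u : Fin 3 → E := fun i => ⟨(b i : V), hPE _ (b i).2 (hall _ (b i).2)⟩ with hu
    have hli : ∀ x y z : ℂ, x • u 0 + y • u 1 + z • u 2 = 0 → x = 0 ∧ y = 0 ∧ z = 0 := by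
      intro x y z hxyz
      have hbl := b.linearIndependent
      rw [Fintype.linearIndependent_iff] at hbl
      have := hbl ![x, y, z] (by
        rw [Fin.sum_univ_three]
        ext
        have h1 := congrArg (Subtype.val) hxyz
        simpa [hu] using h1)
      exact ⟨this 0, this 1, this 2⟩
    obtain ⟨e, he⟩ := ext3 hE4 hli
    obtain ⟨x, y, hxy, hr⟩ := root2h ((T.sub E).t (u 0) (u 0) e) ((T.sub E).t (u 0) (u 1) e)
      ((T.sub E).t (u 1) (u 1) e)
    have hT : ∀ i j k, (T.sub E).t (u i) (u j) (u k) = 0 := by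
      intro i j k
      exact pol3 T hP.2 (b i).2 (b j).2 (b k).2
    have hw : x • u 0 + y • u 1 ≠ 0 := by
      intro h0
      have := he x y 0 0 (by simpa using h0)
      rcases hxy with h | h
      · exact h this.1
      · exact h this.2.1
    obtain ⟨z, hz⟩ := hsm _ hw
    apply hz
    apply (T.sub E).basis4 hE4 he
    · simp only [Tri.add1, Tri.add2, Tri.smul1, Tri.smul2, hT]
      ring
    · simp only [Tri.add1, Tri.add2, Tri.smul1, Tri.smul2, hT]
      ring
    · simp only [Tri.add1, Tri.add2, Tri.smul1, Tri.smul2, hT]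
      ring
    · simp only [Tri.add1, Tri.add2, Tri.smul1, Tri.smul2, (T.sub E).swap12 (u 1) (u 0)]
      linear_combination hr
  · push Not at hall
    obtain ⟨x0, hx0, hx0'⟩ := hall
    set N := LinearMap.ker ((T.fn p p).domRestrict P) with hN
    have hNf : finrank ℂ N = 2 := by
      have h1 : finrank ℂ (LinearMap.range ((T.fn p p).domRestrict P)) + finrank ℂ N
          = finrank ℂ P := LinearMap.finrank_range_add_finrank_ker ((T.fn p p).domRestrict P)
      have h2 : LinearMap.range ((T.fn p p).domRestrict P) = ⊤ := by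
        rw [LinearMap.range_eq_top]
        intro c
        refine ⟨(c / T.t p p x0) • ⟨x0, hx0⟩, ?_⟩
        have : ((T.fn p p).domRestrict P) ⟨x0, hx0⟩ = T.t p p x0 := rfl
        rw [map_smul, this, smul_eq_mul]
        field_simp
      rw [h2, finrank_top, hP.1, Module.finrank_self] at h1
      omega
    set b := Module.finBasisOfFinrankEq ℂ N hNf with hb
    have hbN : ∀ i, T.t p p ((b i : P) : V) = 0 := by
      intro i
      exact LinearMap.mem_ker.mp (b i).2
    set u : Fin 2 → E := fun i => ⟨((b i : P) : V), hPE _ (b i : P).2 (hbN i)⟩ with hu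
    have hli : Ind2 (u 0) (u 1) := by
      intro x y hxy
      have hbl := b.linearIndependent
      rw [Fintype.linearIndependent_iff] at hbl
      have := hbl ![x, y] (by
        rw [Fin.sum_univ_two]
        ext
        have h1 := congrArg (Subtype.val) hxy
        simpa [hu] using h1)
      exact ⟨this 0, this 1⟩
    have hT : ∀ i j k, (T.sub E).t (u i) (u j) (u k) = 0 := by
      intro i j k
      exact pol3 T hP.2 (b i : P).2 (b j : P).2 (b k : P).2
    obtain ⟨e, f, hef, hI⟩ := surf hE4 (T.sub E) hsm hli ⟨hT 0 0 0, hT 0 0 1, hT 0 1 1, hT 1 1 1⟩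
    obtain ⟨hcone, hmem⟩ := h.cone hpE hE hI.ind2 hef
    refine ⟨_, hcone, Submodule.subset_span (by simp), ?_⟩
    rw [eq_bot_iff]
    intro y hy
    obtain ⟨hyP, hyP'⟩ := hy
    obtain ⟨r, s, t, hrst⟩ := hmem y hyP'
    have hy0 : T.t p p y = 0 := by
      rw [hrst, T.add3, T.smul3, h.z, hE _ (s • e + t • f : E).2]
      ring
    have hyN : (⟨y, hyP⟩ : P) ∈ N := by
      rw [hN, LinearMap.mem_ker]
      exact hy0
    have hrep := b.sum_repr ⟨⟨y, hyP⟩, hyN⟩
    rw [Fin.sum_univ_two] at hrep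
    set m := b.repr ⟨⟨y, hyP⟩, hyN⟩ 0
    set n := b.repr ⟨⟨y, hyP⟩, hyN⟩ 1
    have hrep' : y = ((m • u 0 + n • u 1 : E) : V) := by
      have h1 := congrArg (fun z : N => ((z : P) : V)) hrep
      simpa [hu] using h1.symm
    have hr0 : r = 0 := by
      by_contra hr
      apply hpE
      have : p = ((r⁻¹ • ((m • u 0 + n • u 1) - (s • e + t • f)) : E) : V) := by
        rw [Submodule.coe_smul, Submodule.coe_sub, ← hrep', hrst, add_sub_cancel_right,
          smul_smul, inv_mul_cancel₀ hr, one_smul]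
      rw [this]
      exact Subtype.coe_prop _
    rw [hr0, zero_smul, zero_add, hrep'] at hrst
    have hz : m • u 0 + n • u 1 + (-s) • e + (-t) • f = 0 := by
      have h1 : m • u 0 + n • u 1 = s • e + t • f := Subtype.ext hrst
      rw [h1]
      module
    obtain ⟨q1, q2, -, -⟩ := hI _ _ _ _ hz
    rw [Submodule.mem_bot, hrep', q1, q2]
    simp

/-- Two Eckardt points joined by a line of the fourfold: a plane off the first one. -/
theorem Eck.off {T : Tri V} {p q : V} (h : Eck T p) (h' : Eck T q) (hV : finrank ℂ V = 6)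
    (sm : ∀ x : V, x ≠ 0 → ∃ v, T.t x x v ≠ 0) (hpq : Ind2 p q) (hl : T.t p p q = 0) :
    ∃ P' : Submodule ℂ V, IsPl T P' ∧ p ∉ P' := by
  have : FiniteDimensional ℂ V := Module.finite_of_finrank_pos (by omega)
  have hq : T.t q q p = 0 := by
    rw [T.swap23, T.swap12]
    exact h.c q hl
  set K := LinearMap.ker ((T.fn p p).prod (T.fn q q)) with hK
  have hKf : 4 ≤ finrank ℂ K := by
    have h1 := LinearMap.finrank_range_add_finrank_ker ((T.fn p p).prod (T.fn q q))
    have h2 : finrank ℂ (LinearMap.range ((T.fn p p).prod (T.fn q q))) ≤ finrank ℂ (ℂ × ℂ) :=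
      Submodule.finrank_le _
    have h3 : finrank ℂ (ℂ × ℂ) = 2 := by simp
    rw [← hK] at h1
    omega
  have hmemK : ∀ x ∈ K, T.t p p x = 0 ∧ T.t q q x = 0 := by
    intro x hx
    rw [hK, LinearMap.mem_ker] at hx
    exact ⟨congrArg Prod.fst hx, congrArg Prod.snd hx⟩
  obtain ⟨v1, hv1, hv1'⟩ : ∃ v ∈ K, v ∉ Submodule.span ℂ (Set.range ![p, q]) := by
    by_contra hcon
    push Not at hcon
    have h1 : finrank ℂ K ≤ finrank ℂ (Submodule.span ℂ (Set.range ![p, q])) :=
      Submodule.finrank_mono hcon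
    have h2 : finrank ℂ (Submodule.span ℂ (Set.range ![p, q])) ≤ Fintype.card (Fin 2) :=
      finrank_range_le_card (R := ℂ) ![p, q]
    rw [Fintype.card_fin] at h2
    omega
  obtain ⟨v2, hv2, hv2'⟩ : ∃ v ∈ K, v ∉ Submodule.span ℂ (Set.range ![p, q, v1]) := by
    by_contra hcon
    push Not at hcon
    have h1 : finrank ℂ K ≤ finrank ℂ (Submodule.span ℂ (Set.range ![p, q, v1])) :=
      Submodule.finrank_mono hcon
    have h2 : finrank ℂ (Submodule.span ℂ (Set.range ![p, q, v1])) ≤ Fintype.card (Fin 3) :=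
      finrank_range_le_card (R := ℂ) ![p, q, v1]
    rw [Fintype.card_fin] at h2
    omega
  have hv1'' : ∀ a b : ℂ, v1 ≠ a • p + b • q := by
    intro a b h0
    apply hv1'
    rw [h0]
    refine Submodule.add_mem _ (Submodule.smul_mem _ _ (Submodule.subset_span ⟨0, rfl⟩))
      (Submodule.smul_mem _ _ (Submodule.subset_span ⟨1, rfl⟩))
  have hv2'' : ∀ a b c : ℂ, v2 ≠ a • p + b • q + c • v1 := by
    intro a b c h0
    apply hv2'
    rw [h0]
    refine Submodule.add_mem _ (Submodule.add_mem _ (Submodule.smul_mem _ _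
      (Submodule.subset_span ⟨0, rfl⟩)) (Submodule.smul_mem _ _ (Submodule.subset_span ⟨1, rfl⟩)))
      (Submodule.smul_mem _ _ (Submodule.subset_span ⟨2, rfl⟩))
  obtain ⟨x, y, hxy, hr⟩ := root3h (T.t v1 v1 v1) (T.t v1 v1 v2) (T.t v1 v2 v2) (T.t v2 v2 v2)
  set v := x • v1 + y • v2 with hv
  have hvK : v ∈ K := K.add_mem (K.smul_mem _ hv1) (K.smul_mem _ hv2)
  have hvz : T.t v v v = 0 := by
    simp only [hv, T.add1, T.add2, T.add3, T.smul1, T.smul2, T.smul3, T.swap12 v2 v1,
      T.sw v2 v1]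
    linear_combination hr
  have hvpq : ∀ a b : ℂ, v ≠ a • p + b • q := by
    intro a b h0
    by_cases hy : y = 0
    · have hx : x ≠ 0 := by
        rcases hxy with h | h
        · exact h
        · exact absurd hy h
      apply hv1'' (x⁻¹ * a) (x⁻¹ * b)
      have h1 : x • v1 = a • p + b • q := by
        rw [← h0, hv, hy, zero_smul, add_zero]
      calc v1 = x⁻¹ • (x • v1) := by rw [smul_smul, inv_mul_cancel₀ hx, one_smul]
        _ = _ := by rw [h1]; module
    · apply hv2'' (y⁻¹ * a) (y⁻¹ * b) (-(y⁻¹ * x))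
      have h1 : y • v2 = a • p + b • q - x • v1 := by
        rw [← h0, hv]
        abel
      calc v2 = y⁻¹ • (y • v2) := by rw [smul_smul, inv_mul_cancel₀ hy, one_smul]
        _ = _ := by rw [h1]; module
  have hqW : q ∉ Submodule.span ℂ {p, v} := by
    intro h0
    rw [Submodule.mem_span_pair] at h0
    obtain ⟨a, b, hab⟩ := h0
    by_cases hb : b = 0
    · have := hpq a (-1) (by
        rw [← hab, hb]
        module)
      have h1 := this.2
      norm_num at h1
    · apply hvpq (-(b⁻¹ * a)) b⁻¹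
      calc v = b⁻¹ • (b • v) := by rw [smul_smul, inv_mul_cancel₀ hb, one_smul]
        _ = _ := by
          have h1 : b • v = q - a • p := by
            rw [← hab]
            abel
          rw [h1]
          module
  obtain ⟨E, hE4, hE, hqE, hWE, hsm, hdec⟩ := h'.base hV sm (Submodule.span ℂ {p, v}) hqW
  have hpE : p ∈ E := hWE p (Submodule.subset_span (by simp)) hq
  have hvE : v ∈ E := hWE v (Submodule.subset_span (by simp)) (hmemK v hvK).2
  have hli : Ind2 (⟨p, hpE⟩ : E) ⟨v, hvE⟩ := by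
    intro a b hab
    have h1 : a • p + b • v = 0 := by
      have := congrArg Subtype.val hab
      simpa using this
    by_cases hb : b = 0
    · rw [hb, zero_smul, add_zero] at h1
      rcases smul_eq_zero.mp h1 with h2 | h2
      · exact ⟨h2, hb⟩
      · exact absurd h2 h.ne
    · exfalso
      apply hvpq (-(b⁻¹ * a)) 0
      have h2 : b • v = -(a • p) := by
        rw [eq_neg_iff_add_eq_zero, ← h1]
        abel
      calc v = b⁻¹ • (b • v) := by rw [smul_smul, inv_mul_cancel₀ hb, one_smul]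
        _ = _ := by rw [h2]; module
  have hvk := (hmemK v hvK).1
  obtain ⟨e, f, hef, hI⟩ := surf hE4 (T.sub E) hsm hli ⟨h.z, hvk, h.c v hvk, hvz⟩
  obtain ⟨hcone, hmem⟩ := h'.cone hqE hE hI.ind2 hef
  refine ⟨_, hcone, ?_⟩
  intro hp
  obtain ⟨r, s, t, hrst⟩ := hmem p hp
  have hr0 : r = 0 := by
    by_contra hr'
    apply hqE
    have : q = ((r⁻¹ • ((⟨p, hpE⟩ : E) - (s • e + t • f)) : E) : V) := by
      rw [Submodule.coe_smul, Submodule.coe_sub]
      change q = r⁻¹ • (p - ((s • e + t • f : E) : V))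
      rw [hrst, add_sub_cancel_right, smul_smul, inv_mul_cancel₀ hr', one_smul]
    rw [this]
    exact Subtype.coe_prop _
  rw [hr0, zero_smul, zero_add] at hrst
  have hz : (1 : ℂ) • (⟨p, hpE⟩ : E) + (0 : ℂ) • (⟨v, hvE⟩ : E) + (-s) • e + (-t) • f = 0 := by
    have h1 : (⟨p, hpE⟩ : E) = s • e + t • f := Subtype.ext hrst
    rw [h1]
    module
  obtain ⟨q1, -, -, -⟩ := hI _ _ _ _ hz
  exact one_ne_zero q1

end Vale.Agent.R2.H389.Cf
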