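import Vale.Agent.R2.H389.Cf4

/-!
Homogeneous cubic polynomials and their trilinear forms.
-/

namespace Vale.Agent.R2.H389.Cf

set_option linter.unusedSimpArgs false

open Module MvPolynomial

variable {n : ℕ}

theorem pderiv_swap (i j : Fin n) (F : MvPolynomial (Fin n) ℂ) :
    pderiv i (pderiv j F) = pderiv j (pderiv i F) := by
  have h : ⁅(pderiv (R := ℂ) (σ := Fin n) i), (pderiv (R := ℂ) (σ := Fin n) j)⁆ = 0 := by
    apply MvPolynomial.derivation_ext
    intro k
    rw [Derivation.commutator_apply]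
    by_cases h1 : k = j <;> by_cases h2 : k = i
    · subst h1; subst h2; simp
    · subst h1; simp [pderiv_X_of_ne h2]
    · subst h2; simp [pderiv_X_of_ne h1]
    · simp [pderiv_X_of_ne h1, pderiv_X_of_ne h2]
  have h2 := congrArg (fun D => D F) h
  simp only [Derivation.commutator_apply, Derivation.zero_apply] at h2
  exact sub_eq_zero.mp h2

/-- the symmetric coefficients of a cubic form -/
noncomputable def cc (F : MvPolynomial (Fin n) ℂ) (i j k : Fin n) : ℂ :=
  (1 / 6 : ℂ) * eval 0 (pderiv k (pderiv j (pderiv i F)))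

theorem cc12 (F : MvPolynomial (Fin n) ℂ) (i j k : Fin n) : cc F i j k = cc F j i k := by
  unfold cc
  rw [pderiv_swap j i]

theorem cc23 (F : MvPolynomial (Fin n) ℂ) (i j k : Fin n) : cc F i j k = cc F i k j := by
  unfold cc
  rw [pderiv_swap k j]

noncomputable def tri (F : MvPolynomial (Fin n) ℂ) : Tri (Fin n → ℂ) where
  t x y z := ∑ i, ∑ j, ∑ k, cc F i j k * (x i * y j * z k)
  add1 x x' y z := by
    simp only [Pi.add_apply, ← Finset.sum_add_distrib]
    refine Finset.sum_congr rfl fun i _ => Finset.sum_congr rfl fun j _ =>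
      Finset.sum_congr rfl fun k _ => by ring
  smul1 c x y z := by
    simp only [Pi.smul_apply, smul_eq_mul, Finset.mul_sum]
    refine Finset.sum_congr rfl fun i _ => Finset.sum_congr rfl fun j _ =>
      Finset.sum_congr rfl fun k _ => by ring
  swap12 x y z := by
    rw [Finset.sum_comm]
    refine Finset.sum_congr rfl fun i _ => Finset.sum_congr rfl fun j _ =>
      Finset.sum_congr rfl fun k _ => by rw [cc12 F i j k]; ring
  swap23 x y z := by
    refine Finset.sum_congr rfl fun i _ => ?_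
    rw [Finset.sum_comm]
    refine Finset.sum_congr rfl fun j _ =>
      Finset.sum_congr rfl fun k _ => by rw [cc23 F i j k]; ring

theorem eval_hom0 {G : MvPolynomial (Fin n) ℂ} (h : G.IsHomogeneous 0) (x : Fin n → ℂ) :
    eval x G = eval 0 G := by
  rw [← totalDegree_zero_iff_isHomogeneous, totalDegree_eq_zero_iff_eq_C] at h
  rw [h]
  simp

theorem euler_eval {G : MvPolynomial (Fin n) ℂ} {d : ℕ} (h : G.IsHomogeneous d)
    (x : Fin n → ℂ) : ∑ i, x i * eval x (pderiv i G) = d * eval x G := by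
  have h1 := congrArg (eval x) h.sum_X_mul_pderiv
  simpa using h1

theorem eval_pderiv {F : MvPolynomial (Fin n) ℂ} (hF : F.IsHomogeneous 3) (x : Fin n → ℂ)
    (i : Fin n) : eval x (pderiv i F) = 3 * ∑ j, ∑ k, cc F i j k * (x j * x k) := by
  have h1 : (pderiv i F).IsHomogeneous 2 := hF.pderiv
  have h2 : ∀ j, (pderiv j (pderiv i F)).IsHomogeneous 1 := fun j => h1.pderiv
  have h3 : ∀ j k, (pderiv k (pderiv j (pderiv i F))).IsHomogeneous 0 := fun j k => (h2 j).pderiv
  have e1 := euler_eval h1 x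
  have e2 : ∀ j, eval x (pderiv j (pderiv i F)) = ∑ k, x k * (6 * cc F i j k) := by
    intro j
    have := euler_eval (h2 j) x
    rw [Nat.cast_one, one_mul] at this
    rw [← this]
    refine Finset.sum_congr rfl fun k _ => ?_
    rw [eval_hom0 (h3 j k)]
    unfold cc
    ring
  simp only [e2] at e1
  have e3 : ∑ j, x j * ∑ k, x k * (6 * cc F i j k) = 6 * ∑ j, ∑ k, cc F i j k * (x j * x k) := by
    simp only [Finset.mul_sum]
    refine Finset.sum_congr rfl fun j _ => Finset.sum_congr rfl fun k _ => by ring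
  rw [e3] at e1
  push_cast at e1
  linear_combination (-1 / 2) * e1

theorem tri_grad {F : MvPolynomial (Fin n) ℂ} (hF : F.IsHomogeneous 3) (x v : Fin n → ℂ) :
    ∑ i, eval x (pderiv i F) * v i = 3 * (tri F).t x x v := by
  rw [(tri F).swap23, (tri F).swap12]
  simp only [tri, eval_pderiv hF, Finset.mul_sum, Finset.sum_mul]
  refine Finset.sum_congr rfl fun i _ => Finset.sum_congr rfl fun j _ =>
    Finset.sum_congr rfl fun k _ => by ring

theorem tri_eval {F : MvPolynomial (Fin n) ℂ} (hF : F.IsHomogeneous 3) (x : Fin n → ℂ) :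
    (tri F).t x x x = eval x F := by
  have h1 := tri_grad hF x x
  have h2 := euler_eval hF x
  have h3 : ∑ i, eval x (pderiv i F) * x i = ∑ i, x i * eval x (pderiv i F) :=
    Finset.sum_congr rfl fun i _ => by ring
  rw [h3, h2] at h1
  push_cast at h1
  linear_combination (-1 / 3) * h1

/-- `X = {F = 0}` is smooth. -/
def Smooth (F : MvPolynomial (Fin 6) ℂ) : Prop :=
  ∀ x : Fin 6 → ℂ, x ≠ 0 → ∃ i, eval x (pderiv i F) ≠ 0

/-- The plane `P(W)` lies in `X = {F = 0}`. -/
def PlaneIn (F : MvPolynomial (Fin 6) ℂ) (W : Submodule ℂ (Fin 6 → ℂ)) : Prop :=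
  finrank ℂ W = 3 ∧ ∀ x ∈ W, eval x F = 0

/-- `p` is an Eckardt point of `X = {F = 0}`: it lies on `X`, and the section of `X` by its
tangent hyperplane at `p` is a cone with vertex `p`. -/
def EckardtPt (F : MvPolynomial (Fin 6) ℂ) (p : Fin 6 → ℂ) : Prop :=
  p ≠ 0 ∧ eval p F = 0 ∧ ∀ v : Fin 6 → ℂ, eval v F = 0 →
    ∑ i, eval p (pderiv i F) * v i = 0 → ∀ a : ℂ, eval (a • p + v) F = 0

theorem Smooth.sm {F : MvPolynomial (Fin 6) ℂ} (hF : F.IsHomogeneous 3) (h : Smooth F) :
    ∀ x : Fin 6 → ℂ, x ≠ 0 → ∃ v, (tri F).t x x v ≠ 0 := by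
  intro x hx
  obtain ⟨i, hi⟩ := h x hx
  refine ⟨Pi.single i 1, ?_⟩
  intro h0
  apply hi
  have h1 := tri_grad hF x (Pi.single i 1)
  rw [h0] at h1
  simpa [Pi.single_apply] using h1

theorem PlaneIn.isPl {F : MvPolynomial (Fin 6) ℂ} (hF : F.IsHomogeneous 3)
    {W : Submodule ℂ (Fin 6 → ℂ)} : PlaneIn F W ↔ IsPl (tri F) W := by
  unfold PlaneIn IsPl
  simp only [tri_eval hF]

theorem EckardtPt.eck {F : MvPolynomial (Fin 6) ℂ} (hF : F.IsHomogeneous 3)
    {p : Fin 6 → ℂ} (h : EckardtPt F p) : Eck (tri F) p := by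
  obtain ⟨h0, h1, h2⟩ := h
  set T := tri F with hT
  have hz : T.t p p p = 0 := by rw [hT, tri_eval hF, h1]
  refine ⟨h0, hz, ?_⟩
  have h2' : ∀ v : Fin 6 → ℂ, T.t v v v = 0 → T.t p p v = 0 → ∀ a : ℂ,
      T.t (a • p + v) (a • p + v) (a • p + v) = 0 := by
    intro v hv hv' a
    rw [hT, tri_eval hF]
    refine h2 v ?_ ?_ a
    · rw [← tri_eval hF]; exact hv
    · rw [tri_grad hF]
      have : (tri F).t p p v = 0 := hv'
      rw [this, mul_zero]
  intro v hv
  by_contra hne
  set a := -(T.t v v v) / (3 * T.t p v v) with ha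
  have hv1 : T.t (a • p + v) (a • p + v) (a • p + v) = 0 := by
    simp only [T.add1, T.add2, T.add3, T.smul1, T.smul2, T.smul3, T.swap12 v p, T.sw v p, hz, hv]
    have : a * (3 * T.t p v v) = -(T.t v v v) := by
      rw [ha]
      field_simp
    linear_combination this
  have hv2 : T.t p p (a • p + v) = 0 := by
    rw [T.add3, T.smul3, hz, hv]
    ring
  have h3 := h2' _ hv1 hv2 1
  have h4 : T.t p (a • p + v) (a • p + v) = 0 := by
    set w := a • p + v with hw
    simp only [T.add1, T.add2, T.add3, T.smul1, T.smul2, T.smul3, T.swap12 w p, T.sw w p, hz,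
      hv1, hv2] at h3
    linear_combination (1 / 3) * h3
  apply hne
  simp only [T.add1, T.add2, T.add3, T.smul1, T.smul2, T.smul3, T.swap12 v p, T.sw v p, hz, hv]
    at h4
  linear_combination h4

end Vale.Agent.R2.H389.Cf
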