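import Vale.Agent.R2.H389.Cf5

/-!
A smooth cubic fourfold with two disjoint planes is birational to projective 4-space.
-/

namespace Vale.Agent.R2.H389.Cf

set_option linter.unusedSimpArgs false

open Module MvPolynomial

variable {n m : ℕ}

/-- `X = {F = 0}` is rational: there are mutually inverse rational maps between `X` and
projective 4-space, given by homogeneous polynomials. -/
def Rational (F : MvPolynomial (Fin 6) ℂ) : Prop :=
  ∃ (e e' : ℕ) (φ : Fin 6 → MvPolynomial (Fin 5) ℂ) (ψ : Fin 5 → MvPolynomial (Fin 6) ℂ)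
    (g : MvPolynomial (Fin 5) ℂ) (h : MvPolynomial (Fin 6) ℂ),
    (∀ j, (φ j).IsHomogeneous e) ∧ (∀ i, (ψ i).IsHomogeneous e') ∧
    aeval φ F = 0 ∧ g ≠ 0 ∧ ¬ F ∣ h ∧
    (∀ i, aeval φ (ψ i) = g * X i) ∧ (∀ j, F ∣ aeval ψ (φ j) - h * X j)

theorem eval_aeval' (φ : Fin n → MvPolynomial (Fin m) ℂ) (F : MvPolynomial (Fin n) ℂ)
    (s : Fin m → ℂ) : eval s (aeval φ F) = eval (fun j => eval s (φ j)) F := by
  induction F using MvPolynomial.induction_on with
  | C a => simp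
  | add p q hp hq => rw [map_add, map_add, map_add, hp, hq]
  | mul_X p i hp => rw [map_mul, map_mul, map_mul, aeval_X, eval_X, hp]

/-- a linear functional as a polynomial -/
noncomputable def linP (l : (Fin n → ℂ) →ₗ[ℂ] ℂ) : MvPolynomial (Fin n) ℂ :=
  ∑ i, C (l (Pi.single i 1)) * X i

theorem eval_linP (l : (Fin n → ℂ) →ₗ[ℂ] ℂ) (v : Fin n → ℂ) : eval v (linP l) = l v := by
  unfold linP
  rw [LinearMap.pi_apply_eq_sum_univ l v]
  simp only [map_sum, map_mul, eval_C, eval_X, smul_eq_mul]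
  refine Finset.sum_congr rfl fun i _ => ?_
  rw [mul_comm]
  congr 2
  ext j
  simp [Pi.single_apply, eq_comm]

theorem hom_linP (l : (Fin n → ℂ) →ₗ[ℂ] ℂ) : (linP l).IsHomogeneous 1 := by
  unfold linP
  refine IsHomogeneous.sum _ _ _ fun i _ => ?_
  have := (isHomogeneous_C (Fin n) (l (Pi.single i 1))).mul (isHomogeneous_X ℂ i)
  simpa using this

/-- the trilinear form of `F` along three linear maps, as a polynomial -/
noncomputable def triP (F : MvPolynomial (Fin 6) ℂ)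
    (u v w : (Fin n → ℂ) →ₗ[ℂ] (Fin 6 → ℂ)) : MvPolynomial (Fin n) ℂ :=
  ∑ i, ∑ j, ∑ k, C (cc F i j k) * (linP ((LinearMap.proj i).comp u) *
    linP ((LinearMap.proj j).comp v) * linP ((LinearMap.proj k).comp w))

theorem eval_triP (F : MvPolynomial (Fin 6) ℂ)
    (u v w : (Fin n → ℂ) →ₗ[ℂ] (Fin 6 → ℂ)) (s : Fin n → ℂ) :
    eval s (triP F u v w) = (tri F).t (u s) (v s) (w s) := by
  unfold triP tri
  simp only [map_sum, map_mul, eval_C, eval_linP, LinearMap.comp_apply, LinearMap.proj_apply]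

theorem hom_triP (F : MvPolynomial (Fin 6) ℂ)
    (u v w : (Fin n → ℂ) →ₗ[ℂ] (Fin 6 → ℂ)) : (triP F u v w).IsHomogeneous 3 := by
  unfold triP
  refine IsHomogeneous.sum _ _ _ fun i _ => IsHomogeneous.sum _ _ _ fun j _ =>
    IsHomogeneous.sum _ _ _ fun k _ => ?_
  have := (isHomogeneous_C (Fin n) (cc F i j k)).mul
    (((hom_linP ((LinearMap.proj i).comp u)).mul (hom_linP ((LinearMap.proj j).comp v))).mul
      (hom_linP ((LinearMap.proj k).comp w)))
  simpa using this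

theorem exists_eval_ne {G : MvPolynomial (Fin n) ℂ} (h : G ≠ 0) : ∃ z, eval z G ≠ 0 := by
  by_contra hcon
  push Not at hcon
  apply h
  apply MvPolynomial.funext
  intro z
  rw [hcon z, map_zero]

set_option maxHeartbeats 400000 in
/-- Two disjoint planes give rationality. -/
theorem rational_of_disjoint {F : MvPolynomial (Fin 6) ℂ} (hF : F.IsHomogeneous 3)
    (hs : Smooth F) {W1 W2 : Submodule ℂ (Fin 6 → ℂ)} (h1 : PlaneIn F W1) (h2 : PlaneIn F W2)
    (hd : W1 ⊓ W2 = ⊥) : Rational F := by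
  have sm := hs.sm hF
  rw [PlaneIn.isPl hF] at h1 h2
  set T := tri F with hT
  have hc : IsCompl W1 W2 := by
    refine ⟨disjoint_iff.mpr hd, ?_⟩
    rw [codisjoint_iff]
    apply Submodule.eq_top_of_finrank_eq
    have := Submodule.finrank_sup_add_finrank_inf_eq W1 W2
    rw [hd, finrank_bot, h1.1, h2.1] at this
    rw [Module.finrank_fin_fun]
    omega
  set e := Submodule.prodEquivOfIsCompl W1 W2 hc with he
  set b1 := Module.finBasisOfFinrankEq ℂ W1 h1.1
  set b2 := Module.finBasisOfFinrankEq ℂ W2 h2.1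
  set l1 : Fin 3 → (Fin 6 → ℂ) →ₗ[ℂ] ℂ := fun i =>
    (b1.coord i).comp ((LinearMap.fst ℂ W1 W2).comp e.symm.toLinearMap) with hl1
  set l2 : Fin 3 → (Fin 6 → ℂ) →ₗ[ℂ] ℂ := fun i =>
    (b2.coord i).comp ((LinearMap.snd ℂ W1 W2).comp e.symm.toLinearMap) with hl2
  set px : (Fin 6 → ℂ) →ₗ[ℂ] (Fin 6 → ℂ) :=
    W1.subtype.comp ((LinearMap.fst ℂ W1 W2).comp e.symm.toLinearMap) with hpx
  set py : (Fin 6 → ℂ) →ₗ[ℂ] (Fin 6 → ℂ) :=
    W2.subtype.comp ((LinearMap.snd ℂ W1 W2).comp e.symm.toLinearMap) with hpy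
  have hpxm : ∀ v, px v ∈ W1 := fun v => (e.symm v).1.2
  have hpym : ∀ v, py v ∈ W2 := fun v => (e.symm v).2.2
  have hsum : ∀ v, px v + py v = v := by
    intro v
    have := e.apply_symm_apply v
    rw [he, Submodule.coe_prodEquivOfIsCompl'] at this
    exact this
  have hpx_add : ∀ x ∈ W1, ∀ y ∈ W2, px (x + y) = x ∧ py (x + y) = y := by
    intro x hx y hy
    have h3 : e.symm (x + y) = (⟨x, hx⟩, ⟨y, hy⟩) := by
      rw [LinearEquiv.symm_apply_eq, he, Submodule.coe_prodEquivOfIsCompl']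
    constructor
    · show ((e.symm (x + y)).1 : Fin 6 → ℂ) = x
      rw [h3]
    · show ((e.symm (x + y)).2 : Fin 6 → ℂ) = y
      rw [h3]
  have hl_add : ∀ x : W1, ∀ y : W2, ∀ i, l1 i ((x : Fin 6 → ℂ) + y) = b1.coord i x ∧
      l2 i ((x : Fin 6 → ℂ) + y) = b2.coord i y := by
    intro x y i
    have h3 : e.symm ((x : Fin 6 → ℂ) + y) = (x, y) := by
      rw [LinearEquiv.symm_apply_eq, he, Submodule.coe_prodEquivOfIsCompl']
    constructor
    · show b1.coord i (e.symm ((x : Fin 6 → ℂ) + y)).1 = _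
      rw [h3]
    · show b2.coord i (e.symm ((x : Fin 6 → ℂ) + y)).2 = _
      rw [h3]
  have hpxr : ∀ v, px v = l1 0 v • (b1 0 : Fin 6 → ℂ) + l1 1 v • (b1 1 : Fin 6 → ℂ)
      + l1 2 v • (b1 2 : Fin 6 → ℂ) := by
    intro v
    have h3 := b1.sum_repr (e.symm v).1
    rw [Fin.sum_univ_three] at h3
    have h4 := congrArg (Subtype.val) h3
    exact h4.symm
  have hpyr : ∀ v, py v = l2 0 v • (b2 0 : Fin 6 → ℂ) + l2 1 v • (b2 1 : Fin 6 → ℂ)
      + l2 2 v • (b2 2 : Fin 6 → ℂ) := by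
    intro v
    have h3 := b2.sum_repr (e.symm v).2
    rw [Fin.sum_univ_three] at h3
    have h4 := congrArg (Subtype.val) h3
    exact h4.symm
  -- the two linear maps from the 5 variables
  set X5 : (Fin 5 → ℂ) →ₗ[ℂ] (Fin 6 → ℂ) :=
    (LinearMap.proj 0).smulRight (b1 0 : Fin 6 → ℂ) +
    (LinearMap.proj 1).smulRight (b1 1 : Fin 6 → ℂ) +
    (LinearMap.proj 2).smulRight (b1 2 : Fin 6 → ℂ) with hX5
  set Y5 : (Fin 5 → ℂ) →ₗ[ℂ] (Fin 6 → ℂ) :=
    (LinearMap.proj 0).smulRight (b2 0 : Fin 6 → ℂ) +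
    (LinearMap.proj 3).smulRight (b2 1 : Fin 6 → ℂ) +
    (LinearMap.proj 4).smulRight (b2 2 : Fin 6 → ℂ) with hY5
  have hX5a : ∀ s, X5 s = s 0 • (b1 0 : Fin 6 → ℂ) + s 1 • (b1 1 : Fin 6 → ℂ)
      + s 2 • (b1 2 : Fin 6 → ℂ) := by
    intro s
    simp [hX5]
  have hY5a : ∀ s, Y5 s = s 0 • (b2 0 : Fin 6 → ℂ) + s 3 • (b2 1 : Fin 6 → ℂ)
      + s 4 • (b2 2 : Fin 6 → ℂ) := by
    intro s
    simp [hY5]
  set A5 := C (3 : ℂ) * triP F X5 X5 Y5 with hA5
  set B5 := C (3 : ℂ) * triP F X5 Y5 Y5 with hB5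
  set A6 := C (3 : ℂ) * triP F px px py with hA6
  set B6 := C (3 : ℂ) * triP F px py py with hB6
  have eA5 : ∀ s, eval s A5 = 3 * T.t (X5 s) (X5 s) (Y5 s) := by
    intro s; rw [hA5, map_mul, eval_C, eval_triP]
  have eB5 : ∀ s, eval s B5 = 3 * T.t (X5 s) (Y5 s) (Y5 s) := by
    intro s; rw [hB5, map_mul, eval_C, eval_triP]
  have eA6 : ∀ s, eval s A6 = 3 * T.t (px s) (px s) (py s) := by
    intro s; rw [hA6, map_mul, eval_C, eval_triP]
  have eB6 : ∀ s, eval s B6 = 3 * T.t (px s) (py s) (py s) := by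
    intro s; rw [hB6, map_mul, eval_C, eval_triP]
  -- the value of the cubic form on a sum
  have hval : ∀ x ∈ W1, ∀ y ∈ W2, eval (x + y) F = 3 * T.t x x y + 3 * T.t x y y := by
    intro x hx y hy
    rw [← tri_eval hF, ← hT]
    simp only [T.add1, T.add2, T.add3, T.swap12 y x, T.sw y x, h1.2 x hx, h2.2 y hy]
    ring
  have hvec : ∀ s, (fun j => eval s (B5 * linP ((LinearMap.proj j).comp X5)
      - A5 * linP ((LinearMap.proj j).comp Y5))) =
      (eval s B5) • X5 s + (-(eval s A5)) • Y5 s := by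
    intro s
    ext j
    simp only [map_sub, map_mul, eval_linP, LinearMap.comp_apply, LinearMap.proj_apply,
      Pi.add_apply, Pi.smul_apply, smul_eq_mul]
    ring
  have hX5m : ∀ s, X5 s ∈ W1 := by
    intro s
    rw [hX5a]
    exact W1.add_mem (W1.add_mem (W1.smul_mem _ (b1 0).2) (W1.smul_mem _ (b1 1).2))
      (W1.smul_mem _ (b1 2).2)
  have hY5m : ∀ s, Y5 s ∈ W2 := by
    intro s
    rw [hY5a]
    exact W2.add_mem (W2.add_mem (W2.smul_mem _ (b2 0).2) (W2.smul_mem _ (b2 1).2))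
      (W2.smul_mem _ (b2 2).2)
  -- a general point
  have hL0 : linP (l1 0) ≠ 0 := by
    intro h0
    have h3 := eval_linP (l1 0) ((b1 0 : Fin 6 → ℂ) + ((0 : W2) : Fin 6 → ℂ))
    rw [h0, (hl_add (b1 0) 0 0).1] at h3
    simp at h3
  have hM0 : linP (l2 0) ≠ 0 := by
    intro h0
    have h3 := eval_linP (l2 0) (((0 : W1) : Fin 6 → ℂ) + (b2 0 : Fin 6 → ℂ))
    rw [h0, (hl_add 0 (b2 0) 0).2] at h3
    simp at h3
  have hA6n : A6 ≠ 0 := by
    intro h0
    have hb : (b1 0 : Fin 6 → ℂ) ≠ 0 := by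
      intro h3
      exact b1.ne_zero 0 (by ext1; exact h3)
    obtain ⟨v, hv⟩ := sm _ hb
    apply hv
    have h3 := eA6 ((b1 0 : Fin 6 → ℂ) + py v)
    obtain ⟨h4, h5⟩ := hpx_add _ (b1 0).2 _ (hpym v)
    rw [h0, map_zero, h4, h5] at h3
    have h6 : T.t (b1 0 : Fin 6 → ℂ) (b1 0) (px v) = 0 :=
      pol3 T h1.2 (b1 0).2 (b1 0).2 (hpxm v)
    rw [← hsum v, T.add3, h6]
    linear_combination (-1 / 3) * h3
  have hB6n : B6 ≠ 0 := by
    intro h0
    have hb : (b2 0 : Fin 6 → ℂ) ≠ 0 := by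
      intro h3
      exact b2.ne_zero 0 (by ext1; exact h3)
    obtain ⟨v, hv⟩ := sm _ hb
    apply hv
    have h3 := eB6 (px v + (b2 0 : Fin 6 → ℂ))
    obtain ⟨h4, h5⟩ := hpx_add _ (hpxm v) _ (b2 0).2
    rw [h0, map_zero, h4, h5] at h3
    have h6 : T.t (b2 0 : Fin 6 → ℂ) (b2 0) (py v) = 0 :=
      pol3 T h2.2 (b2 0).2 (b2 0).2 (hpym v)
    rw [← hsum v, T.add3, h6, T.swap23 (b2 0 : Fin 6 → ℂ) (b2 0) (px v),
      T.swap12 (b2 0 : Fin 6 → ℂ) (px v)]
    linear_combination (-1 / 3) * h3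
  obtain ⟨z, hz⟩ := exists_eval_ne (mul_ne_zero (mul_ne_zero hL0 hM0) (mul_ne_zero hA6n hB6n))
  simp only [map_mul, eval_linP] at hz
  have hz1 : l1 0 z ≠ 0 := by intro h0; apply hz; rw [h0]; ring
  have hz2 : l2 0 z ≠ 0 := by intro h0; apply hz; rw [h0]; ring
  have hz3 : eval z A6 ≠ 0 := by intro h0; apply hz; rw [h0]; ring
  have hz4 : eval z B6 ≠ 0 := by intro h0; apply hz; rw [h0]; ring
  refine ⟨4, 2, fun j => B5 * linP ((LinearMap.proj j).comp X5)
      - A5 * linP ((LinearMap.proj j).comp Y5),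
    ![linP (l1 0) * linP (l2 0), linP (l1 1) * linP (l2 0), linP (l1 2) * linP (l2 0),
      linP (l1 0) * linP (l2 1), linP (l1 0) * linP (l2 2)],
    -(A5 * B5 * X 0), (linP (l1 0) * linP (l2 0)) ^ 2 * B6, ?_, ?_, ?_, ?_, ?_, ?_, ?_⟩
  · intro j
    have k1 : B5.IsHomogeneous 3 := by
      have := (isHomogeneous_C (Fin 5) (3 : ℂ)).mul (hom_triP F X5 Y5 Y5)
      simpa using this
    have k2 : A5.IsHomogeneous 3 := by
      have := (isHomogeneous_C (Fin 5) (3 : ℂ)).mul (hom_triP F X5 X5 Y5)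
      simpa using this
    exact (k1.mul (hom_linP _)).sub (k2.mul (hom_linP _))
  · intro i
    fin_cases i
    · exact (hom_linP _).mul (hom_linP _)
    · exact (hom_linP _).mul (hom_linP _)
    · exact (hom_linP _).mul (hom_linP _)
    · exact (hom_linP _).mul (hom_linP _)
    · exact (hom_linP _).mul (hom_linP _)
  · apply MvPolynomial.funext
    intro s
    rw [eval_aeval', hvec, hval _ (W1.smul_mem _ (hX5m s)) _ (W2.smul_mem _ (hY5m s)), map_zero]
    simp only [T.smul1, T.smul2, T.smul3, eA5, eB5]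
    ring
  · intro h0
    have h3 := congrArg (eval ![1, l1 1 z / l1 0 z, l1 2 z / l1 0 z, l2 1 z / l2 0 z,
      l2 2 z / l2 0 z]) h0
    set s : Fin 5 → ℂ := ![1, l1 1 z / l1 0 z, l1 2 z / l1 0 z, l2 1 z / l2 0 z,
      l2 2 z / l2 0 z] with hs'
    have hsX : X5 s = (l1 0 z)⁻¹ • px z := by
      have k0 : s 0 = 1 := rfl
      have k1 : s 1 = l1 1 z / l1 0 z := rfl
      have k2 : s 2 = l1 2 z / l1 0 z := rfl
      rw [hX5a, hpxr, k0, k1, k2, smul_add, smul_add, smul_smul, smul_smul, smul_smul,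
        inv_mul_cancel₀ hz1, div_eq_inv_mul, div_eq_inv_mul]
    have hsY : Y5 s = (l2 0 z)⁻¹ • py z := by
      have k0 : s 0 = 1 := rfl
      have k1 : s 3 = l2 1 z / l2 0 z := rfl
      have k2 : s 4 = l2 2 z / l2 0 z := rfl
      rw [hY5a, hpyr, k0, k1, k2, smul_add, smul_add, smul_smul, smul_smul, smul_smul,
        inv_mul_cancel₀ hz2, div_eq_inv_mul, div_eq_inv_mul]
    rw [map_neg, map_mul, map_mul, map_zero, eA5, eB5, hsX, hsY, eval_X] at h3
    simp only [T.smul1, T.smul2, T.smul3] at h3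
    have hs0 : s 0 = 1 := rfl
    rw [hs0] at h3
    rw [eA6] at hz3
    rw [eB6] at hz4
    have k1 : (l1 0 z)⁻¹ ≠ 0 := inv_ne_zero hz1
    have k2 : (l2 0 z)⁻¹ ≠ 0 := inv_ne_zero hz2
    have k3 : ((l1 0 z)⁻¹ ^ 3 * (l2 0 z)⁻¹ ^ 3) * ((3 * T.t (px z) (px z) (py z)) *
        (3 * T.t (px z) (py z) (py z))) = 0 := by
      linear_combination -h3
    exact mul_ne_zero (mul_ne_zero (pow_ne_zero _ k1) (pow_ne_zero _ k2))
      (mul_ne_zero hz3 hz4) k3
  · rintro ⟨G, hG⟩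
    set z' := (eval z B6) • px z + (-(eval z A6)) • py z with hz'
    have hF0 : eval z' F = 0 := by
      rw [hz', hval _ (W1.smul_mem _ (hpxm z)) _ (W2.smul_mem _ (hpym z))]
      simp only [T.smul1, T.smul2, T.smul3, eA6, eB6]
      ring
    have h3 : eval z' ((linP (l1 0) * linP (l2 0)) ^ 2) * eval z' B6 = eval z' F * eval z' G := by
      rw [← map_mul, ← map_mul, ← hG]
    rw [map_pow, map_mul, hF0, zero_mul, eval_linP, eval_linP, eB6] at h3
    obtain ⟨k1, k2⟩ := hpx_add _ (W1.smul_mem (eval z B6) (hpxm z)) _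
      (W2.smul_mem (-(eval z A6)) (hpym z))
    have k3 : l1 0 z' = eval z B6 * l1 0 z := by
      have := (hl_add ((eval z B6) • (e.symm z).1) ((-(eval z A6)) • (e.symm z).2) 0).1
      rw [map_smul] at this
      exact this
    have k4 : l2 0 z' = -(eval z A6) * l2 0 z := by
      have := (hl_add ((eval z B6) • (e.symm z).1) ((-(eval z A6)) • (e.symm z).2) 0).2
      rw [map_smul] at this
      exact this
    rw [← hz'] at k1 k2
    rw [k1, k2, k3, k4] at h3
    simp only [T.smul1, T.smul2, T.smul3] at h3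
    have hB := eB6 z
    have k5 : ((eval z B6) ^ 4 * (eval z A6) ^ 4) * ((l1 0 z) ^ 2 * (l2 0 z) ^ 2) = 0 := by
      have : ((eval z B6) * l1 0 z * (-(eval z A6) * l2 0 z)) ^ 2 *
        ((eval z B6) * (eval z A6) ^ 2 * (eval z B6)) = 0 := by
        rw [← h3]
        conv_lhs => rw [show (eval z B6) * (eval z A6) ^ 2 * (eval z B6) =
          (eval z B6) * (eval z A6) ^ 2 * (3 * T.t (px z) (py z) (py z)) by rw [← hB]]
        ring
      linear_combination this
    exact mul_ne_zero (mul_ne_zero (pow_ne_zero _ hz4) (pow_ne_zero _ hz3))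
      (mul_ne_zero (pow_ne_zero _ hz1) (pow_ne_zero _ hz2)) k5
  · intro i
    apply MvPolynomial.funext
    intro s
    have k0 := hvec s
    set z' := (eval s B5) • X5 s + (-(eval s A5)) • Y5 s with hz'
    have kc1 : ∀ i, l1 i z' = eval s B5 * b1.coord i ⟨X5 s, hX5m s⟩ := by
      intro i
      have := (hl_add ((eval s B5) • ⟨X5 s, hX5m s⟩) ((-(eval s A5)) • ⟨Y5 s, hY5m s⟩) i).1
      rw [map_smul] at this
      exact this
    have kc2 : ∀ i, l2 i z' = -(eval s A5) * b2.coord i ⟨Y5 s, hY5m s⟩ := by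
      intro i
      have := (hl_add ((eval s B5) • ⟨X5 s, hX5m s⟩) ((-(eval s A5)) • ⟨Y5 s, hY5m s⟩) i).2
      rw [map_smul] at this
      exact this
    have kx : (⟨X5 s, hX5m s⟩ : W1) = s 0 • b1 0 + s 1 • b1 1 + s 2 • b1 2 := by
      apply Subtype.ext
      show X5 s = _
      rw [hX5a]
      simp
    have ky : (⟨Y5 s, hY5m s⟩ : W2) = s 0 • b2 0 + s 3 • b2 1 + s 4 • b2 2 := by
      apply Subtype.ext
      show Y5 s = _
      rw [hY5a]
      simp
    have kx0 : b1.coord 0 ⟨X5 s, hX5m s⟩ = s 0 := by rw [kx]; simp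
    have kx1 : b1.coord 1 ⟨X5 s, hX5m s⟩ = s 1 := by rw [kx]; simp
    have kx2 : b1.coord 2 ⟨X5 s, hX5m s⟩ = s 2 := by rw [kx]; simp
    have ky0 : b2.coord 0 ⟨Y5 s, hY5m s⟩ = s 0 := by rw [ky]; simp
    have ky1 : b2.coord 1 ⟨Y5 s, hY5m s⟩ = s 3 := by rw [ky]; simp
    have ky2 : b2.coord 2 ⟨Y5 s, hY5m s⟩ = s 4 := by rw [ky]; simp
    rw [eval_aeval', k0, map_mul, map_neg, map_mul, map_mul, eval_X, eval_X]
    fin_cases i
    · show eval z' (linP (l1 0) * linP (l2 0)) = _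
      rw [map_mul, eval_linP, eval_linP, kc1, kc2, kx0, ky0]
      show _ = -(eval s A5 * eval s B5 * s 0) * s 0
      ring
    · show eval z' (linP (l1 1) * linP (l2 0)) = _
      rw [map_mul, eval_linP, eval_linP, kc1, kc2, kx1, ky0]
      show _ = -(eval s A5 * eval s B5 * s 0) * s 1
      ring
    · show eval z' (linP (l1 2) * linP (l2 0)) = _
      rw [map_mul, eval_linP, eval_linP, kc1, kc2, kx2, ky0]
      show _ = -(eval s A5 * eval s B5 * s 0) * s 2
      ring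
    · show eval z' (linP (l1 0) * linP (l2 1)) = _
      rw [map_mul, eval_linP, eval_linP, kc1, kc2, kx0, ky1]
      show _ = -(eval s A5 * eval s B5 * s 0) * s 3
      ring
    · show eval z' (linP (l1 0) * linP (l2 2)) = _
      rw [map_mul, eval_linP, eval_linP, kc1, kc2, kx0, ky2]
      show _ = -(eval s A5 * eval s B5 * s 0) * s 4
      ring
  · intro j
    refine ⟨-((linP (l1 0) * linP (l2 0)) ^ 2 * linP ((LinearMap.proj j).comp py)), ?_⟩
    apply MvPolynomial.funext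
    intro v
    set s : Fin 5 → ℂ := fun i => eval v (![linP (l1 0) * linP (l2 0),
      linP (l1 1) * linP (l2 0), linP (l1 2) * linP (l2 0),
      linP (l1 0) * linP (l2 1), linP (l1 0) * linP (l2 2)] i) with hs'
    have hsX : X5 s = l2 0 v • px v := by
      rw [hX5a, hpxr]
      have k0 : s 0 = l1 0 v * l2 0 v := by simp [hs', eval_linP]
      have k1 : s 1 = l1 1 v * l2 0 v := by simp [hs', eval_linP]
      have k2 : s 2 = l1 2 v * l2 0 v := by simp [hs', eval_linP]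
      rw [k0, k1, k2]
      module
    have hsY : Y5 s = l1 0 v • py v := by
      rw [hY5a, hpyr]
      have k0 : s 0 = l1 0 v * l2 0 v := by simp [hs', eval_linP]
      have k1 : s 3 = l1 0 v * l2 1 v := by simp [hs', eval_linP]
      have k2 : s 4 = l1 0 v * l2 2 v := by simp [hs', eval_linP]
      rw [k0, k1, k2]
      module
    have hFv : eval v F = 3 * T.t (px v) (px v) (py v) + 3 * T.t (px v) (py v) (py v) := by
      conv_lhs => rw [← hsum v]
      exact hval _ (hpxm v) _ (hpym v)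
    have hvj : v j = px v j + py v j := by
      conv_lhs => rw [← hsum v]
      rfl
    simp only [map_sub, map_mul, map_neg, map_pow, eval_aeval', eval_linP, eval_X,
      LinearMap.comp_apply, LinearMap.proj_apply, ← hs', eA5, eB5, eB6, hsX, hsY, hFv, hvj,
      T.smul1, T.smul2, T.smul3, Pi.smul_apply, smul_eq_mul]
    ring

end Vale.Agent.R2.H389.Cf
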