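import Vale.Agent.R2.H389.Cf6

/-!
Cubic fourfolds with Eckardt points: disjoint planes and rationality.
-/

namespace Vale.Agent.R2.H389.Cf

set_option linter.unusedSimpArgs false

open Module MvPolynomial

theorem ind2_of_li {p q : Fin 6 → ℂ} (h : LinearIndependent ℂ ![p, q]) : Ind2 p q := by
  rw [LinearIndependent.pair_iff] at h
  exact h

theorem eckardt_plane {F : MvPolynomial (Fin 6) ℂ} (hF : F.IsHomogeneous 3)
    (hs : Smooth F) {p : Fin 6 → ℂ} (hp : EckardtPt F p) {W : Submodule ℂ (Fin 6 → ℂ)}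
    (hW : PlaneIn F W) (hpW : p ∉ W) :
    ∃ W', PlaneIn F W' ∧ p ∈ W' ∧ W ⊓ W' = ⊥ := by
  obtain ⟨W', h1, h2, h3⟩ := (hp.eck hF).disjoint (by simp) (hs.sm hF)
    ((PlaneIn.isPl hF).mp hW) hpW
  exact ⟨W', (PlaneIn.isPl hF).mpr h1, h2, h3⟩

/-- two Eckardt points of the trilinear form, joined by a line of the fourfold -/
theorem eck_pair {F : MvPolynomial (Fin 6) ℂ} (hF : F.IsHomogeneous 3)
    (hs : Smooth F) {p q : Fin 6 → ℂ} (hp : Eck (tri F) p) (hq : Eck (tri F) q)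
    (hi : Ind2 p q) (hl : (tri F).t p p q = 0) :
    ∃ W₁ W₂, PlaneIn F W₁ ∧ PlaneIn F W₂ ∧ W₁ ⊓ W₂ = ⊥ := by
  obtain ⟨W, hW, hpW⟩ := hp.off hq (by simp) (hs.sm hF) hi hl
  obtain ⟨W', h1, h2, h3⟩ := hp.disjoint (by simp) (hs.sm hF) hW hpW
  exact ⟨W, W', (PlaneIn.isPl hF).mpr hW, (PlaneIn.isPl hF).mpr h1, h3⟩

theorem eckardt_two {F : MvPolynomial (Fin 6) ℂ} (hF : F.IsHomogeneous 3)
    (hs : Smooth F) {p q : Fin 6 → ℂ} (hp : EckardtPt F p) (hq : EckardtPt F q)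
    (hi : LinearIndependent ℂ ![p, q])
    (h : (∀ a b : ℂ, eval (a • p + b • q) F = 0) ∨ ∃ W, PlaneIn F W) :
    ∃ W₁ W₂, PlaneIn F W₁ ∧ PlaneIn F W₂ ∧ W₁ ⊓ W₂ = ⊥ := by
  have key : (∀ a b : ℂ, eval (a • p + b • q) F = 0) →
      ∃ W₁ W₂, PlaneIn F W₁ ∧ PlaneIn F W₂ ∧ W₁ ⊓ W₂ = ⊥ := by
    intro hl
    apply eck_pair hF hs (hp.eck hF) (hq.eck hF) (ind2_of_li hi)
    set T := tri F with hT
    have h1 := hl 1 1
    have h2 := hl 1 (-1)
    have h3 := hl 0 1
    rw [← tri_eval hF, ← hT] at h1 h2 h3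
    simp only [T.add1, T.add2, T.add3, T.smul1, T.smul2, T.smul3, T.swap12 q p, T.sw q p,
      (hp.eck hF).z, (hq.eck hF).z] at h1 h2 h3
    have h4 := (hp.eck hF).z
    rw [← hT] at h4
    rw [h4] at h1 h2
    linear_combination (1 / 6) * h1 - (1 / 6) * h2 - (1 / 3) * h3
  rcases h with h | ⟨W, hW⟩
  · exact key h
  · by_cases hpW : p ∈ W
    · by_cases hqW : q ∈ W
      · exact key fun a b => hW.2 _ (W.add_mem (W.smul_mem _ hpW) (W.smul_mem _ hqW))
      · obtain ⟨W', h1, h2, h3⟩ := eckardt_plane hF hs hq hW hqW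
        exact ⟨W, W', hW, h1, h3⟩
    · obtain ⟨W', h1, h2, h3⟩ := eckardt_plane hF hs hp hW hpW
      exact ⟨W, W', hW, h1, h3⟩

/-- the cubic form `x₀² L + x₁² M + G` with `L`, `M`, `G` in the last four variables -/
noncomputable def twoSquares (L M G : MvPolynomial (Fin 4) ℂ) : MvPolynomial (Fin 6) ℂ :=
  X 0 ^ 2 * rename (Fin.natAdd 2) L + X 1 ^ 2 * rename (Fin.natAdd 2) M
    + rename (Fin.natAdd 2) G

theorem eval_twoSquares (L M G : MvPolynomial (Fin 4) ℂ) (v : Fin 6 → ℂ) :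
    eval v (twoSquares L M G) = v 0 ^ 2 * eval (fun i : Fin 4 => v (Fin.natAdd 2 i)) L
      + v 1 ^ 2 * eval (fun i : Fin 4 => v (Fin.natAdd 2 i)) M
      + eval (fun i : Fin 4 => v (Fin.natAdd 2 i)) G := by
  unfold twoSquares
  simp only [map_add, map_mul, map_pow, eval_X, eval_rename]
  rfl

theorem hom_twoSquares {L M G : MvPolynomial (Fin 4) ℂ} (hL : L.IsHomogeneous 1)
    (hM : M.IsHomogeneous 1) (hG : G.IsHomogeneous 3) : (twoSquares L M G).IsHomogeneous 3 := by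
  unfold twoSquares
  exact ((((isHomogeneous_X ℂ (0 : Fin 6)).pow 2).mul hL.rename_isHomogeneous).add
    (((isHomogeneous_X ℂ (1 : Fin 6)).pow 2).mul hM.rename_isHomogeneous)).add
    hG.rename_isHomogeneous

theorem eck_twoSquares {L M G : MvPolynomial (Fin 4) ℂ} (hL : L.IsHomogeneous 1)
    (hM : M.IsHomogeneous 1) (hG : G.IsHomogeneous 3) :
    Eck (tri (twoSquares L M G)) (Pi.single 0 1) ∧ Eck (tri (twoSquares L M G)) (Pi.single 1 1) ∧
      (tri (twoSquares L M G)).t (Pi.single 0 1) (Pi.single 0 1) (Pi.single 1 1) = 0 := by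
  have hF := hom_twoSquares hL hM hG
  set T := tri (twoSquares L M G) with hT
  have hval : ∀ v, T.t v v v = v 0 ^ 2 * eval (fun i : Fin 4 => v (Fin.natAdd 2 i)) L
      + v 1 ^ 2 * eval (fun i : Fin 4 => v (Fin.natAdd 2 i)) M
      + eval (fun i : Fin 4 => v (Fin.natAdd 2 i)) G := by
    intro v
    rw [hT, tri_eval hF, eval_twoSquares]
  set p : Fin 6 → ℂ := Pi.single 0 1 with hp
  set q : Fin 6 → ℂ := Pi.single 1 1 with hq
  have hp0 : p 0 = 1 := by simp [hp]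
  have hp1 : p 1 = 0 := by simp [hp]
  have hq0 : q 0 = 0 := by simp [hq]
  have hq1 : q 1 = 1 := by simp [hq]
  have hpn : ∀ i : Fin 4, p (Fin.natAdd 2 i) = 0 := by
    intro i
    fin_cases i <;> rfl
  have hqn : ∀ i : Fin 4, q (Fin.natAdd 2 i) = 0 := by
    intro i
    fin_cases i <;> rfl
  have hL0 : eval (fun _ : Fin 4 => (0 : ℂ)) L = 0 := by
    have h1 := euler_eval hL (fun _ : Fin 4 => (0 : ℂ))
    simp only [zero_mul, Finset.sum_const_zero, Nat.cast_one, one_mul] at h1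
    exact h1.symm
  have hM0 : eval (fun _ : Fin 4 => (0 : ℂ)) M = 0 := by
    have h1 := euler_eval hM (fun _ : Fin 4 => (0 : ℂ))
    simp only [zero_mul, Finset.sum_const_zero, Nat.cast_one, one_mul] at h1
    exact h1.symm
  have hG0 : eval (fun _ : Fin 4 => (0 : ℂ)) G = 0 := by
    have h1 := euler_eval hG (fun _ : Fin 4 => (0 : ℂ))
    simp only [zero_mul, Finset.sum_const_zero] at h1
    have h2 : ((3 : ℕ) : ℂ) ≠ 0 := by norm_num
    rcases mul_eq_zero.mp h1.symm with h | h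
    · exact absurd h h2
    · exact h
  have hpz : T.t p p p = 0 := by
    rw [hval]
    simp only [hpn, hL0, hM0, hG0]
    ring
  have hqz : T.t q q q = 0 := by
    rw [hval]
    simp only [hqn, hL0, hM0, hG0]
    ring
  -- values along the lines through p and q
  have hpv : ∀ (v : Fin 6 → ℂ) (a : ℂ), 3 * a ^ 2 * T.t p p v + 3 * a * T.t p v v
      = (a ^ 2 + 2 * a * v 0) * eval (fun i : Fin 4 => v (Fin.natAdd 2 i)) L := by
    intro v a
    have h1 := hval (a • p + v)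
    have h2 := hval v
    simp only [T.add1, T.add2, T.add3, T.smul1, T.smul2, T.smul3, T.swap12 v p, T.sw v p,
      hpz, Pi.add_apply, Pi.smul_apply, hp0, hp1, hpn, smul_eq_mul, mul_zero, zero_add,
      mul_one] at h1
    linear_combination h1 - h2
  have hqv : ∀ (v : Fin 6 → ℂ) (a : ℂ), 3 * a ^ 2 * T.t q q v + 3 * a * T.t q v v
      = (a ^ 2 + 2 * a * v 1) * eval (fun i : Fin 4 => v (Fin.natAdd 2 i)) M := by
    intro v a
    have h1 := hval (a • q + v)
    have h2 := hval v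
    simp only [T.add1, T.add2, T.add3, T.smul1, T.smul2, T.smul3, T.swap12 v q, T.sw v q,
      hqz, Pi.add_apply, Pi.smul_apply, hq0, hq1, hqn, smul_eq_mul, mul_zero, zero_add,
      mul_one] at h1
    linear_combination h1 - h2
  refine ⟨⟨?_, hpz, ?_⟩, ⟨?_, hqz, ?_⟩, ?_⟩
  · intro h
    rw [h] at hp0
    simp at hp0
  · intro v hv
    have h1 := hpv v 1
    have h2 := hpv v (-1)
    rw [hv] at h1 h2
    have h3 : eval (fun i : Fin 4 => v (Fin.natAdd 2 i)) L = 0 := by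
      linear_combination (-1 / 2) * h1 - (1 / 2) * h2
    rw [h3] at h1
    linear_combination (1 / 3) * h1
  · intro h
    rw [h] at hq1
    simp at hq1
  · intro v hv
    have h1 := hqv v 1
    have h2 := hqv v (-1)
    rw [hv] at h1 h2
    have h3 : eval (fun i : Fin 4 => v (Fin.natAdd 2 i)) M = 0 := by
      linear_combination (-1 / 2) * h1 - (1 / 2) * h2
    rw [h3] at h1
    linear_combination (1 / 3) * h1
  · have h1 := hpv q 1
    have h2 := hpv q (-1)
    simp only [hqn, hL0] at h1 h2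
    linear_combination (1 / 6) * h1 + (1 / 6) * h2

theorem twoSquares_planes {L M G : MvPolynomial (Fin 4) ℂ} (hL : L.IsHomogeneous 1)
    (hM : M.IsHomogeneous 1) (hG : G.IsHomogeneous 3) (hs : Smooth (twoSquares L M G)) :
    ∃ W₁ W₂, PlaneIn (twoSquares L M G) W₁ ∧ PlaneIn (twoSquares L M G) W₂ ∧ W₁ ⊓ W₂ = ⊥ := by
  obtain ⟨h1, h2, h3⟩ := eck_twoSquares hL hM hG
  refine eck_pair (hom_twoSquares hL hM hG) hs h1 h2 ?_ h3
  intro x y hxy
  have h4 := congrFun hxy 0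
  have h5 := congrFun hxy 1
  simp at h4 h5
  exact ⟨h4, h5⟩

end Vale.Agent.R2.H389.Cf
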